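import Vale.Agent.P309.Model

/-!
# Gaussian estimates
-/

namespace Vale.Agent.P309

open MeasureTheory ProbabilityTheory Complex
open scoped RealInnerProductSpace ENNReal

variable {d : ℕ}

/-- Replacing the component along a unit vector by an independent standard normal. -/
lemma gauss_split (q : Vec d) (hq : ‖q‖ = 1) :
    ((stdGaussian (Vec d)).prod (gaussianReal 0 1)).map
      (fun p : Vec d × ℝ => p.1 - ⟪q, p.1⟫ • q + p.2 • q) = stdGaussian (Vec d) := by
  have hm : Measurable (fun p : Vec d × ℝ => p.1 - ⟪q, p.1⟫ • q + p.2 • q) := by fun_prop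
  apply Measure.ext_of_charFun
  ext t
  rw [charFun_stdGaussian, charFun_apply, integral_map hm.aemeasurable (by fun_prop)]
  have hpt : ∀ p : Vec d × ℝ, cexp (((⟪p.1 - ⟪q, p.1⟫ • q + p.2 • q, t⟫ : ℝ) : ℂ) * I) =
      cexp (((⟪p.1, t - ⟪q, t⟫ • q⟫ : ℝ) : ℂ) * I) *
        cexp (((⟪p.2, ⟪q, t⟫⟫ : ℝ) : ℂ) * I) := by
    intro p
    rw [← Complex.exp_add, ← add_mul, ← Complex.ofReal_add]
    congr 3
    simp only [inner_add_left, inner_sub_left, inner_sub_right, real_inner_smul_left,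
      real_inner_smul_right, real_inner_comm p.1 q]
    simp [RCLike.inner_apply]
    ring
  simp_rw [hpt]
  rw [integral_prod_mul (fun x : Vec d => cexp (((⟪x, t - ⟪q, t⟫ • q⟫ : ℝ) : ℂ) * I))
    (fun z : ℝ => cexp (((⟪z, ⟪q, t⟫⟫ : ℝ) : ℂ) * I))]
  rw [← charFun_apply, ← charFun_apply, charFun_stdGaussian, charFun_gaussianReal, ← Complex.exp_add]
  congr 1
  have h : ‖t - ⟪q, t⟫ • q‖ ^ 2 = ‖t‖ ^ 2 - ⟪q, t⟫ ^ 2 := by
    rw [norm_sub_sq_real, norm_smul, mul_pow, hq, real_inner_smul_right, Real.norm_eq_abs, sq_abs,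
      real_inner_comm q t]
    ring
  rw [← Complex.ofReal_pow ‖t - _‖, h]
  push_cast
  ring

lemma map_inner_unit (q : Vec d) (hq : ‖q‖ = 1) :
    (stdGaussian (Vec d)).map (fun x => ⟪x, q⟫) = gaussianReal 0 1 := by
  conv_lhs => rw [← gauss_split q hq]
  rw [Measure.map_map (by fun_prop) (by fun_prop)]
  have : ((fun x => ⟪x, q⟫) ∘ fun p : Vec d × ℝ => p.1 - ⟪q, p.1⟫ • q + p.2 • q) = Prod.snd := by
    funext p
    simp [inner_add_left, inner_sub_left, real_inner_smul_left, real_inner_self_eq_norm_sq, hq,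
      real_inner_comm q p.1]
  rw [this, Measure.map_snd_prod]
  simp

lemma gauss_interval (c : ℝ) {D h : ℝ} (hD : 0 < D) (hh : 0 ≤ h) :
    gaussianReal 0 1 {z | |c + z * D| ≤ 2 * h} ≤
      ENNReal.ofReal (2 * h) * (ENNReal.ofReal D)⁻¹ := by
  have hsub : {z : ℝ | |c + z * D| ≤ 2 * h} ⊆ Set.Icc ((-2 * h - c) / D) ((2 * h - c) / D) := by
    intro z hz
    rw [Set.mem_setOf_eq, abs_le] at hz
    exact ⟨by rw [div_le_iff₀ hD]; linarith [hz.1], by rw [le_div_iff₀ hD]; linarith [hz.2]⟩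
  refine (measure_mono hsub).trans ?_
  rw [gaussianReal_apply _ one_ne_zero]
  have hpdf : ∀ x, gaussianPDF 0 1 x ≤ ENNReal.ofReal (1 / 2) := by
    intro x
    refine ENNReal.ofReal_le_ofReal ?_
    rw [gaussianPDFReal_def]
    have h1 : (2 : ℝ) ≤ √(2 * Real.pi * (1 : NNReal)) := by
      rw [Real.le_sqrt (by norm_num) (by positivity)]
      push_cast
      nlinarith [Real.two_le_pi]
    calc (√(2 * Real.pi * (1 : NNReal)))⁻¹ * Real.exp (-(x - 0) ^ 2 / (2 * (1 : NNReal)))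
        ≤ (√(2 * Real.pi * (1 : NNReal)))⁻¹ * 1 := by
          refine mul_le_mul_of_nonneg_left (Real.exp_le_one_iff.2 ?_) (by positivity)
          apply div_nonpos_of_nonpos_of_nonneg <;> [nlinarith; positivity]
      _ ≤ 1 / 2 := by rw [mul_one, one_div]; exact inv_anti₀ (by norm_num) h1
  refine (lintegral_mono hpdf).trans ?_
  rw [setLIntegral_const, Real.volume_Icc, ← ENNReal.ofReal_inv_of_pos hD,
    ← ENNReal.ofReal_mul (by norm_num), ← ENNReal.ofReal_mul (by positivity)]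
  refine ENNReal.ofReal_le_ofReal (le_of_eq ?_)
  field_simp
  ring

/-- Distance from `s` to the span of the family `v`. -/
noncomputable def gap {j : ℕ} (v : Fin j → Vec d) (s : Vec d) : ℝ :=
  ‖s - (Submodule.span ℝ (Set.range v)).starProjection s‖

lemma measurable_gap {j : ℕ} (v : Fin j → Vec d) : Measurable (gap v) := by
  unfold gap
  fun_prop

/-- The product of the inverse gaps of a family. -/
noncomputable def invGaps : (k : ℕ) → (Fin (k + 1) → Vec d) → ℝ≥0∞
  | 0, _ => 1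
  | k + 1, v =>
    invGaps k (fun i => v i.castSucc) *
      (ENNReal.ofReal (gap (fun i => v i.castSucc) (v (Fin.last (k + 1)))))⁻¹

lemma anticoncentration : ∀ (k : ℕ) (v : Fin (k + 1) → Vec d) {h : ℝ}, 0 < h →
    stdGaussian (Vec d) {x | ∀ i, |⟪x, v i⟫ - ⟪x, v 0⟫| ≤ 2 * h} ≤
      ENNReal.ofReal (2 * h) ^ k * invGaps k v
  | 0, v, h, hh => by
    simp only [pow_zero, invGaps, mul_one]
    exact prob_le_one
  | k + 1, v, h, hh => by
    set v' : Fin (k + 1) → Vec d := fun i => v i.castSucc with hv'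
    set s : Vec d := v (Fin.last (k + 1)) with hs
    have ih := anticoncentration k v' hh
    have hinv : invGaps (k + 1) v = invGaps k v' * (ENNReal.ofReal (gap v' s))⁻¹ := rfl
    have hsub : {x | ∀ i, |⟪x, v i⟫ - ⟪x, v 0⟫| ≤ 2 * h} ⊆
        {x | ∀ i, |⟪x, v' i⟫ - ⟪x, v' 0⟫| ≤ 2 * h} := fun x hx i => hx i.castSucc
    set g := gap v' s with hg
    have hg0 : (0 : ℝ) ≤ g := norm_nonneg _
    set C := ENNReal.ofReal (2 * h) with hC
    have hC0 : C ≠ 0 := by simp [hC, hh]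
    rcases hg0.eq_or_lt with hg1 | hg1
    · rw [hinv, ← hg1, ENNReal.ofReal_zero, ENNReal.inv_zero]
      have hstd := (measure_mono hsub).trans ih
      by_cases hz : invGaps k v' = 0
      · rw [hz] at hstd ⊢
        simpa using hstd
      · rw [ENNReal.mul_top hz, ENNReal.mul_top (pow_ne_zero _ hC0)]
        exact le_top
    · set p := (Submodule.span ℝ (Set.range v')).starProjection s with hp
      set q : Vec d := g⁻¹ • (s - p) with hqdef
      have hq : ‖q‖ = 1 := by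
        rw [hqdef, norm_smul, norm_inv, Real.norm_of_nonneg hg0]
        exact inv_mul_cancel₀ hg1.ne'
      have horth : ∀ w ∈ Submodule.span ℝ (Set.range v'), ⟪q, w⟫ = 0 := fun w hw => by
        rw [hqdef, real_inner_smul_left, hp, Submodule.starProjection_inner_eq_zero s w hw,
          mul_zero]
      have hqv : ∀ i, ⟪q, v' i⟫ = 0 := fun i =>
        horth _ (Submodule.subset_span (Set.mem_range_self i))
      have hqs : ⟪q, s⟫ = g := by
        have h1 : ⟪q, s - p⟫ = g := by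
          rw [hqdef, real_inner_smul_left, real_inner_self_eq_norm_sq]
          change g⁻¹ * g ^ 2 = g
          field_simp
        have h2 : ⟪q, p⟫ = 0 := horth _ (Submodule.starProjection_apply_mem _ _)
        rw [inner_sub_right, h2, sub_zero] at h1
        exact h1
      set S' : Set (Vec d) := {x | ∀ i, |⟪x, v' i⟫ - ⟪x, v' 0⟫| ≤ 2 * h} with hS'
      have hS'm : MeasurableSet S' := by
        simp only [hS', Set.setOf_forall]
        exact MeasurableSet.iInter fun i => measurableSet_le (by fun_prop) measurable_const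
      have hSm : MeasurableSet {x : Vec d | ∀ i, |⟪x, v i⟫ - ⟪x, v 0⟫| ≤ 2 * h} := by
        simp only [Set.setOf_forall]
        exact MeasurableSet.iInter fun i => measurableSet_le (by fun_prop) measurable_const
      have hpre : (fun p : Vec d × ℝ => p.1 - ⟪q, p.1⟫ • q + p.2 • q) ⁻¹'
          {x | ∀ i, |⟪x, v i⟫ - ⟪x, v 0⟫| ≤ 2 * h} ⊆
          {p | p.1 ∈ S' ∧ |(⟪p.1, s - v' 0⟫ - ⟪q, p.1⟫ * g) + p.2 * g| ≤ 2 * h} := by
        intro x hx
        have hx' : ∀ i, |⟪x.1 - ⟪q, x.1⟫ • q + x.2 • q, v i⟫ -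
            ⟪x.1 - ⟪q, x.1⟫ • q + x.2 • q, v 0⟫| ≤ 2 * h := hx
        have key : ∀ i, ⟪x.1 - ⟪q, x.1⟫ • q + x.2 • q, v' i⟫ = ⟪x.1, v' i⟫ := by
          intro i
          simp [inner_add_left, inner_sub_left, real_inner_smul_left, hqv i]
        refine ⟨fun i => ?_, ?_⟩
        · have h2 : |⟪x.1 - ⟪q, x.1⟫ • q + x.2 • q, v' i⟫ -
              ⟪x.1 - ⟪q, x.1⟫ • q + x.2 • q, v' 0⟫| ≤ 2 * h := hx' i.castSucc
          rwa [key, key] at h2
        · have h2 : |⟪x.1 - ⟪q, x.1⟫ • q + x.2 • q, s⟫ -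
              ⟪x.1 - ⟪q, x.1⟫ • q + x.2 • q, v' 0⟫| ≤ 2 * h := hx' (Fin.last (k + 1))
          rw [key] at h2
          simp only [inner_add_left, inner_sub_left, real_inner_smul_left, hqs] at h2
          rw [inner_sub_right]
          convert h2 using 2
          ring
      calc stdGaussian (Vec d) {x | ∀ i, |⟪x, v i⟫ - ⟪x, v 0⟫| ≤ 2 * h}
          = ((stdGaussian (Vec d)).prod (gaussianReal 0 1))
              ((fun p : Vec d × ℝ => p.1 - ⟪q, p.1⟫ • q + p.2 • q) ⁻¹'
                {x | ∀ i, |⟪x, v i⟫ - ⟪x, v 0⟫| ≤ 2 * h}) := by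
            conv_lhs => rw [← gauss_split q hq]
            rw [Measure.map_apply (by fun_prop) hSm]
        _ ≤ ((stdGaussian (Vec d)).prod (gaussianReal 0 1))
              {p | p.1 ∈ S' ∧ |(⟪p.1, s - v' 0⟫ - ⟪q, p.1⟫ * g) + p.2 * g| ≤ 2 * h} :=
            measure_mono hpre
        _ ≤ ∫⁻ x, S'.indicator (fun _ => C * (ENNReal.ofReal g)⁻¹) x ∂stdGaussian (Vec d) := by
            have hm : MeasurableSet {p : Vec d × ℝ | p.1 ∈ S' ∧
                |(⟪p.1, s - v' 0⟫ - ⟪q, p.1⟫ * g) + p.2 * g| ≤ 2 * h} :=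
              (measurable_fst hS'm).inter (measurableSet_le
                (f := fun p : Vec d × ℝ => |(⟪p.1, s - v' 0⟫ - ⟪q, p.1⟫ * g) + p.2 * g|)
                (by fun_prop) measurable_const)
            rw [Measure.prod_apply hm]
            refine lintegral_mono fun x => ?_
            by_cases hx : x ∈ S'
            · rw [Set.indicator_of_mem hx]
              refine (measure_mono (t := {z : ℝ | |(⟪x, s - v' 0⟫ - ⟪q, x⟫ * g) + z * g| ≤ 2 * h})
                ?_).trans (gauss_interval _ hg1 hh.le)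
              exact fun z hz => hz.2
            · rw [Set.indicator_of_notMem hx, nonpos_iff_eq_zero]
              exact measure_mono_null (fun z hz => hx hz.1) measure_empty
        _ = (C * (ENNReal.ofReal g)⁻¹) * stdGaussian (Vec d) S' :=
            lintegral_indicator_const hS'm _
        _ ≤ (C * (ENNReal.ofReal g)⁻¹) * (C ^ k * invGaps k v') := mul_le_mul_right ih _
        _ = C ^ (k + 1) * invGaps (k + 1) v := by rw [hinv]; ring

lemma sqrt_half_factor : (√(1 - 2 * (1 / 4 : ℝ)))⁻¹ ≤ 3 / 2 := by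
  rw [inv_le_comm₀ (by positivity) (by norm_num), Real.le_sqrt (by norm_num) (by norm_num)]
  norm_num

lemma gauss_exp_sq {l : ℝ} (hl : l < 1 / 2) :
    ∫⁻ z, ENNReal.ofReal (Real.exp (l * z ^ 2)) ∂gaussianReal 0 1 =
      ENNReal.ofReal (√(1 - 2 * l))⁻¹ := by
  rw [gaussianReal_of_var_ne_zero _ one_ne_zero,
    lintegral_withDensity_eq_lintegral_mul _ (measurable_gaussianPDF 0 1) (by fun_prop)]
  have hb : 0 < 1 / 2 - l := by linarith
  have hpt : ∀ z, (gaussianPDF 0 1 * fun z => ENNReal.ofReal (Real.exp (l * z ^ 2))) z =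
      ENNReal.ofReal ((√(2 * Real.pi))⁻¹ * Real.exp (-(1 / 2 - l) * z ^ 2)) := by
    intro z
    rw [Pi.mul_apply, gaussianPDF_def, ← ENNReal.ofReal_mul (gaussianPDFReal_nonneg _ _ _),
      gaussianPDFReal_def]
    push_cast
    rw [mul_one, sub_zero, mul_one, mul_assoc, ← Real.exp_add]
    congr 3
    ring
  simp_rw [hpt]
  rw [← ofReal_integral_eq_lintegral_ofReal ((integrable_exp_neg_mul_sq hb).const_mul _)
    (Filter.Eventually.of_forall fun z => by positivity), integral_const_mul, integral_gaussian]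
  congr 1
  rw [← Real.sqrt_inv, ← Real.sqrt_inv, ← Real.sqrt_mul (by positivity)]
  congr 1
  field_simp

lemma gauss_exp_inner {v : Vec d} {r : ℝ} (hr : 0 < r) (hv : ‖v‖ ≤ r) :
    ∫⁻ x, ENNReal.ofReal (Real.exp (⟪x, v⟫ ^ 2 / (4 * r ^ 2))) ∂stdGaussian (Vec d) ≤
      ENNReal.ofReal (3 / 2) := by
  by_cases hv0 : v = 0
  · subst hv0
    simp only [inner_zero_right, ne_eq, OfNat.ofNat_ne_zero, not_false_eq_true, zero_pow,
      zero_div, Real.exp_zero, lintegral_const, measure_univ, mul_one]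
    exact ENNReal.ofReal_le_ofReal (by norm_num)
  · have hn : 0 < ‖v‖ := norm_pos_iff.2 hv0
    have hq : ‖‖v‖⁻¹ • v‖ = 1 := norm_smul_inv_norm hv0
    calc ∫⁻ x, ENNReal.ofReal (Real.exp (⟪x, v⟫ ^ 2 / (4 * r ^ 2))) ∂stdGaussian (Vec d)
        ≤ ∫⁻ x, ENNReal.ofReal (Real.exp (1 / 4 * ⟪x, ‖v‖⁻¹ • v⟫ ^ 2)) ∂stdGaussian (Vec d) := by
          refine lintegral_mono fun x => ENNReal.ofReal_le_ofReal (Real.exp_le_exp.2 ?_)
          rw [real_inner_smul_right, mul_pow]
          calc ⟪x, v⟫ ^ 2 / (4 * r ^ 2) ≤ ⟪x, v⟫ ^ 2 / (4 * ‖v‖ ^ 2) := by gcongr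
            _ = 1 / 4 * (‖v‖⁻¹ ^ 2 * ⟪x, v⟫ ^ 2) := by field_simp
      _ = ∫⁻ z, ENNReal.ofReal (Real.exp (1 / 4 * z ^ 2)) ∂gaussianReal 0 1 := by
          rw [← map_inner_unit _ hq, lintegral_map (by fun_prop) (by fun_prop)]
      _ ≤ _ := by
          rw [gauss_exp_sq (by norm_num)]
          exact ENNReal.ofReal_le_ofReal sqrt_half_factor

end Vale.Agent.P309
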