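import Vale.Agent.P309.LowerBound

/-!
# A quantised Kaczmarz learner, and the counting bound
-/

namespace Vale.Agent.P309

open MeasureTheory ProbabilityTheory
open scoped RealInnerProductSpace ENNReal

variable {d : ℕ}

/-- The grid value of an index in `Fin (2 N + 1)`. -/
noncomputable def gridVal (N : ℕ) (k : Fin (2 * N + 1)) : ℝ := ((k.val : ℝ) - N) / N

/-- Clip a real to `[-1, 1]`. -/
noncomputable def clip (v : ℝ) : ℝ := max (-1) (min 1 v)

lemma round_clip_bounds (N : ℕ) (v : ℝ) :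
    -(N : ℤ) ≤ round (clip v * N) ∧ round (clip v * N) ≤ (N : ℤ) := by
  have h1 : -1 ≤ clip v := le_max_left _ _
  have h2 : clip v ≤ 1 := max_le (by norm_num) (min_le_left _ _)
  have hN : (0 : ℝ) ≤ N := N.cast_nonneg
  have h := abs_le.1 (abs_sub_round (clip v * N))
  constructor
  · have : (-(N : ℤ) - 1 : ℤ) < round (clip v * N) := by
      have : ((-(N : ℤ) - 1 : ℤ) : ℝ) < (round (clip v * N) : ℝ) := by push_cast; nlinarith
      exact_mod_cast this
    omega
  · have : round (clip v * N) < (N : ℤ) + 1 := by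
      have : (round (clip v * N) : ℝ) < (((N : ℤ) + 1 : ℤ) : ℝ) := by push_cast; nlinarith
      exact_mod_cast this
    omega

/-- The grid index nearest to the clipped value. -/
noncomputable def gridIdx (N : ℕ) (v : ℝ) : Fin (2 * N + 1) :=
  ⟨(round (clip v * N) + N).toNat, by have := round_clip_bounds N v; omega⟩

lemma measurable_gridIdx (N : ℕ) : Measurable (gridIdx N) := by
  refine measurable_to_countable' fun k => ?_
  have hm : Measurable fun v : ℝ => (round (clip v * N) + N).toNat := by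
    have h1 : Measurable fun v : ℝ => clip v * N := by unfold clip; fun_prop
    have h2 : Measurable fun v : ℝ => round (clip v * N) := by
      simp only [round_eq]
      exact Int.measurable_floor.comp (h1.add_const _)
    exact (measurable_of_countable fun z : ℤ => (z + N).toNat).comp h2
  convert hm (measurableSet_singleton k.val) using 1
  ext v
  simp [gridIdx, Fin.ext_iff]

lemma gridVal_idx_close (N : ℕ) (hN : 0 < N) (v : ℝ) :
    |gridVal N (gridIdx N v) - clip v| ≤ 1 / (2 * N) := by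
  have hN' : (0 : ℝ) < N := by exact_mod_cast hN
  have hnn : (0 : ℤ) ≤ round (clip v * N) + N := by have := round_clip_bounds N v; omega
  have hcast : ((round (clip v * N) + N).toNat : ℝ) = (round (clip v * N) : ℝ) + N := by
    have : (((round (clip v * N) + N).toNat : ℤ)) = round (clip v * N) + N := Int.toNat_of_nonneg hnn
    exact_mod_cast this
  simp only [gridVal, gridIdx, hcast, add_sub_cancel_right]
  rw [div_sub' hN'.ne', abs_div, abs_of_pos hN', div_le_iff₀ hN', mul_comm (N : ℝ) (clip v),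
    abs_sub_comm]
  refine (abs_sub_round _).trans (le_of_eq ?_)
  field_simp

lemma sq_clip_sub_le {v σ : ℝ} (h1 : -1 ≤ σ) (h2 : σ ≤ 1) :
    (clip v - σ) ^ 2 ≤ (v - σ) ^ 2 := by
  rw [clip]
  rcases le_total v 1 with h | h
  · rw [min_eq_right h]
    rcases le_total (-1) v with h' | h'
    · rw [max_eq_right h']
    · rw [max_eq_left h']; nlinarith
  · rw [min_eq_left h, max_eq_right (by norm_num : (-1 : ℝ) ≤ 1)]; nlinarith

/-- The point encoded by a grid index vector. -/
noncomputable def gridPt (N : ℕ) (k : Fin d → Fin (2 * N + 1)) : Vec d :=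
  WithLp.toLp 2 fun i => gridVal N (k i)

/-- The Kaczmarz update of `z`. -/
noncomputable def kacz (z x : Vec d) (y : ℝ) : Vec d := z + ((y - ⟪x, z⟫) / ‖x‖ ^ 2) • x

/-- One quantised Kaczmarz step on grid indices. -/
noncomputable def kaczGrid (N : ℕ) (k : Fin d → Fin (2 * N + 1)) (x : Vec d) (y : ℝ) :
    Fin d → Fin (2 * N + 1) := fun i => gridIdx N (kacz (gridPt N k) x y i)

lemma kacz_error (z x s : Vec d) :
    ‖kacz z x ⟪x, s⟫ - s‖ ^ 2 = ‖z - s‖ ^ 2 - ⟪x, z - s⟫ ^ 2 / ‖x‖ ^ 2 := by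
  rcases eq_or_ne x 0 with rfl | hx
  · simp [kacz]
  have hn : ‖x‖ ≠ 0 := norm_ne_zero_iff.2 hx
  rw [show kacz z x ⟪x, s⟫ - s = (z - s) - (⟪x, z - s⟫ / ‖x‖ ^ 2) • x by
    simp only [kacz, inner_sub_right]
    rw [show ⟪x, s⟫ - ⟪x, z⟫ = -(⟪x, z⟫ - ⟪x, s⟫) by ring, neg_div, neg_smul]
    abel, norm_sub_sq_real, norm_smul, mul_pow, real_inner_smul_right, real_inner_comm x (z - s),
    Real.norm_eq_abs, sq_abs]
  field_simp
  ring

lemma sum_sq_eq_norm (v : Vec d) : ∑ i, v i ^ 2 = ‖v‖ ^ 2 := by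
  rw [EuclideanSpace.real_norm_sq_eq]

lemma quant_error {N : ℕ} (hN : 0 < N) {s : Vec d} (hs : ‖s‖ = 1) (hd : 0 < d)
    (k : Fin d → Fin (2 * N + 1)) (x : Vec d) :
    ‖gridPt N (kaczGrid N k x ⟪x, s⟫) - s‖ ^ 2 ≤
      (1 + 1 / (2 * d)) * (‖gridPt N k - s‖ ^ 2 - ⟪x, gridPt N k - s⟫ ^ 2 / ‖x‖ ^ 2) +
        (d : ℝ) ^ 2 / N ^ 2 := by
  rw [← kacz_error]
  set v := kacz (gridPt N k) x ⟪x, s⟫ with hv
  have hD : (1 : ℝ) ≤ d := by exact_mod_cast hd
  have hN' : (0 : ℝ) < N := by exact_mod_cast hN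
  have hcoord : ∀ i, (gridVal N (gridIdx N (v i)) - s i) ^ 2 ≤
      (1 + 1 / (2 * d)) * (v i - s i) ^ 2 + (1 + 2 * d) * (1 / (2 * N)) ^ 2 := by
    intro i
    have hsi := abs_le.1 (show |s i| ≤ 1 by
      have := PiLp.norm_apply_le s i
      simpa [hs] using this)
    set a := clip (v i) - s i with ha
    set e := gridVal N (gridIdx N (v i)) - clip (v i) with he
    have he2 : e ^ 2 ≤ (1 / (2 * (N : ℝ))) ^ 2 := by
      rw [← sq_abs]
      exact pow_le_pow_left₀ (abs_nonneg _) (gridVal_idx_close N hN (v i)) 2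
    have ha2 : a ^ 2 ≤ (v i - s i) ^ 2 := sq_clip_sub_le hsi.1 hsi.2
    have hy : (a + e) ^ 2 ≤ (1 + 1 / (2 * d)) * a ^ 2 + (1 + 2 * d) * e ^ 2 := by
      have h : 0 ≤ 1 / (2 * (d : ℝ)) * (a - 2 * d * e) ^ 2 := by positivity
      have h' : 1 / (2 * (d : ℝ)) * (a - 2 * d * e) ^ 2 =
          1 / (2 * (d : ℝ)) * a ^ 2 - 2 * a * e + 2 * d * e ^ 2 := by field_simp; ring
      linarith [sq_nonneg a, add_sq a e]
    calc (gridVal N (gridIdx N (v i)) - s i) ^ 2 = (a + e) ^ 2 := by rw [ha, he]; ring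
      _ ≤ _ := hy
      _ ≤ _ := by gcongr
  calc ‖gridPt N (kaczGrid N k x ⟪x, s⟫) - s‖ ^ 2
      = ∑ i, (gridVal N (gridIdx N (v i)) - s i) ^ 2 := by
        rw [← sum_sq_eq_norm]
        exact Finset.sum_congr rfl fun i _ => by simp [gridPt, kaczGrid, hv]
    _ ≤ ∑ i, ((1 + 1 / (2 * d)) * (v i - s i) ^ 2 + (1 + 2 * d) * (1 / (2 * N)) ^ 2) :=
        Finset.sum_le_sum fun i _ => hcoord i
    _ = (1 + 1 / (2 * d)) * ‖v - s‖ ^ 2 + d * ((1 + 2 * d) * (1 / (2 * N)) ^ 2) := by
        rw [Finset.sum_add_distrib, ← Finset.mul_sum, Finset.sum_const, Finset.card_univ,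
          Fintype.card_fin, nsmul_eq_mul, ← sum_sq_eq_norm]
        simp
    _ ≤ _ := by
        gcongr
        field_simp
        nlinarith

lemma exists_isometry_map_unit {q₁ q₂ : Vec d} (h1 : ‖q₁‖ = 1) (h2 : ‖q₂‖ = 1) :
    ∃ f : Vec d ≃ₗᵢ[ℝ] Vec d, f q₁ = q₂ :=
  ⟨Submodule.reflection (ℝ ∙ (q₁ - q₂))ᗮ, Submodule.reflection_sub (by rw [h1, h2])⟩

lemma measurable_dir (e : Vec d) : Measurable fun x : Vec d => ⟪x, e⟫ ^ 2 / ‖x‖ ^ 2 :=
  ((measurable_id.inner measurable_const).pow_const 2).div (measurable_norm.pow_const 2)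

lemma integrable_dir (e : Vec d) :
    Integrable (fun x => ⟪x, e⟫ ^ 2 / ‖x‖ ^ 2) (stdGaussian (Vec d)) := by
  refine Integrable.mono' (integrable_const (‖e‖ ^ 2)) (measurable_dir e).aestronglyMeasurable
    (Filter.Eventually.of_forall fun x => ?_)
  rw [Real.norm_of_nonneg (by positivity)]
  rcases eq_or_ne x 0 with rfl | hx
  · simp [sq_nonneg]
  rw [div_le_iff₀ (by positivity), ← mul_pow, mul_comm, ← sq_abs]
  exact pow_le_pow_left₀ (abs_nonneg _) (abs_real_inner_le_norm x e) 2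

lemma integral_dir {n : ℕ} (e : Vec (n + 1)) :
    ∫ x, ⟪x, e⟫ ^ 2 / ‖x‖ ^ 2 ∂stdGaussian (Vec (n + 1)) = ‖e‖ ^ 2 / (n + 1) := by
  set b := EuclideanSpace.basisFun (Fin (n + 1)) ℝ with hb
  set I : Vec (n + 1) → ℝ := fun q => ∫ x, ⟪x, q⟫ ^ 2 / ‖x‖ ^ 2 ∂stdGaussian (Vec (n + 1)) with hI
  have hsame : ∀ q₁ q₂, ‖q₁‖ = 1 → ‖q₂‖ = 1 → I q₂ = I q₁ := by
    intro q₁ q₂ h1 h2
    obtain ⟨f, hf⟩ := exists_isometry_map_unit h1 h2
    simp only [hI]
    conv_lhs => rw [← stdGaussian_map f]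
    rw [integral_map f.continuous.aemeasurable (measurable_dir q₂).aestronglyMeasurable, ← hf]
    simp only [f.inner_map_map, f.norm_map]
  have hne : ∀ᵐ x ∂stdGaussian (Vec (n + 1)), x ≠ 0 := by
    rw [ae_iff]
    haveI : NullSingletonClass (gaussianReal 0 1) := nullSingletonClass_gaussianReal one_ne_zero
    have hq : ‖b 0‖ = 1 := b.orthonormal.1 0
    refine measure_mono_null (fun x hx => ?_)
      (show stdGaussian (Vec (n + 1)) ((fun x => ⟪x, b 0⟫) ⁻¹' {0}) = 0 by
        rw [← Measure.map_apply (by fun_prop) (measurableSet_singleton _), map_inner_unit _ hq]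
        exact measure_singleton 0)
    simp [not_not.1 hx]
  have hsum : ∑ i, I (b i) = 1 := by
    simp only [hI]
    rw [← integral_finsetSum _ fun i _ => integrable_dir (b i)]
    calc ∫ x, ∑ i, ⟪x, b i⟫ ^ 2 / ‖x‖ ^ 2 ∂stdGaussian (Vec (n + 1))
        = ∫ _, (1 : ℝ) ∂stdGaussian (Vec (n + 1)) := integral_congr_ae (hne.mono fun x hx => by
          simp only [← Finset.sum_div, b.sum_sq_inner_left x]
          exact div_self (by simpa using hx))
      _ = 1 := by simp
  rcases eq_or_ne e 0 with rfl | he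
  · simp
  set q := ‖e‖⁻¹ • e with hq
  have hq1 : ‖q‖ = 1 := norm_smul_inv_norm he
  have hIq : I q = 1 / ((n : ℝ) + 1) := by
    have : ∀ i, I (b i) = I q := fun i => hsame q (b i) hq1 (b.orthonormal.1 i)
    simp only [this, Finset.sum_const, Finset.card_univ, Fintype.card_fin, nsmul_eq_mul] at hsum
    push_cast at hsum
    rw [eq_div_iff (by positivity)]
    linarith
  calc ∫ x, ⟪x, e⟫ ^ 2 / ‖x‖ ^ 2 ∂stdGaussian (Vec (n + 1))
      = ‖e‖ ^ 2 * I q := by
        rw [hI, ← integral_const_mul]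
        refine integral_congr_ae (Filter.Eventually.of_forall fun x => ?_)
        simp only [hq, real_inner_smul_right]
        field_simp
    _ = _ := by rw [hIq]; ring

/-- The contraction of the expected squared error. -/
lemma val_kacz_le {n N : ℕ} (hN : 0 < N) {S : Type*} [Fintype S] [MeasurableSpace S]
    [MeasurableSingletonClass S] {g : ℕ → S → Vec (n + 1) → ℝ → S}
    (hg : ∀ t w, Measurable fun p : Vec (n + 1) × ℝ => g t w p.1 p.2)
    (dec : S → Fin (n + 1) → Fin (2 * N + 1))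
    (hdec : ∀ t w x y, dec (g t w x y) = kaczGrid N (dec w) x y)
    {s : Vec (n + 1)} (hs : ‖s‖ = 1) : ∀ (r t : ℕ) (w : S),
    val g (fun w s => ENNReal.ofReal (‖gridPt N (dec w) - s‖ ^ 2)) r t w s ≤
      ENNReal.ofReal ((1 - 1 / (2 * ((n : ℝ) + 1))) ^ r * ‖gridPt N (dec w) - s‖ ^ 2 +
        (1 - (1 - 1 / (2 * ((n : ℝ) + 1))) ^ r) * (2 * ((n : ℝ) + 1) ^ 3 / N ^ 2)) := by
  set F : S → Vec (n + 1) → ℝ≥0∞ :=
    fun w s => ENNReal.ofReal (‖gridPt N (dec w) - s‖ ^ 2) with hF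
  have hFm : ∀ w, Measurable (F w) := fun w => by simp only [hF]; fun_prop
  set D : ℝ := (n : ℝ) + 1 with hD
  have hD1 : 1 ≤ D := by simp [hD]
  set q : ℝ := 1 - 1 / (2 * D) with hq
  have hq0 : 0 ≤ q := by rw [hq, sub_nonneg, div_le_one (by positivity)]; linarith
  have hq1 : q ≤ 1 := by rw [hq]; simp; positivity
  set B : ℝ := 2 * D ^ 3 / N ^ 2 with hB
  intro r
  induction r with
  | zero => intro t w; simp [val, fold, hF]
  | succ r ih =>
    intro t w
    set e := gridPt N (dec w) - s with he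
    set J : Vec (n + 1) → ℝ := fun x => q ^ r * ((1 + 1 / (2 * D)) *
      (‖e‖ ^ 2 - ⟪x, e⟫ ^ 2 / ‖x‖ ^ 2) + D ^ 2 / N ^ 2) + (1 - q ^ r) * B with hJ
    have hqr : 0 ≤ q ^ r := pow_nonneg hq0 r
    have hqr1 : q ^ r ≤ 1 := pow_le_one₀ hq0 hq1
    have hJint : Integrable J (stdGaussian (Vec (n + 1))) := by
      have h1 := (((integrable_const (‖e‖ ^ 2)).sub (integrable_dir e)).const_mul
        (1 + 1 / (2 * D))).add (integrable_const (D ^ 2 / (N : ℝ) ^ 2))
      exact (h1.const_mul (q ^ r)).add (integrable_const _)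
    have hJpos : ∀ x, 0 ≤ J x := by
      intro x
      have h1 := kacz_error (gridPt N (dec w)) x s
      have h2 : 0 ≤ ‖e‖ ^ 2 - ⟪x, e⟫ ^ 2 / ‖x‖ ^ 2 := by rw [he, ← h1]; positivity
      have : 0 ≤ (1 - q ^ r) * B := mul_nonneg (by linarith) (by positivity)
      simp only [hJ]
      positivity
    rw [val_succ hFm hg]
    calc ∫⁻ x, val g F r (t + 1) (g t w x ⟪x, s⟫) s ∂stdGaussian (Vec (n + 1))
        ≤ ∫⁻ x, ENNReal.ofReal (J x) ∂stdGaussian (Vec (n + 1)) := by
          refine lintegral_mono fun x => (ih _ _).trans (ENNReal.ofReal_le_ofReal ?_)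
          simp only [hJ, hdec]
          have h := quant_error (d := n + 1) hN hs (by omega) (dec w) x
          push_cast at h
          exact add_le_add (mul_le_mul_of_nonneg_left h hqr) le_rfl
      _ = ENNReal.ofReal (∫ x, J x ∂stdGaussian (Vec (n + 1))) :=
          (ofReal_integral_eq_lintegral_ofReal hJint (Filter.Eventually.of_forall hJpos)).symm
      _ ≤ _ := by
          refine ENNReal.ofReal_le_ofReal ?_
          have hint : ∫ x, J x ∂stdGaussian (Vec (n + 1)) = q ^ r * ((1 + 1 / (2 * D)) *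
              (‖e‖ ^ 2 - ‖e‖ ^ 2 / D) + D ^ 2 / N ^ 2) + (1 - q ^ r) * B := by
            have hA : Integrable (fun x => ‖e‖ ^ 2 - ⟪x, e⟫ ^ 2 / ‖x‖ ^ 2)
                (stdGaussian (Vec (n + 1))) := (integrable_const _).sub (integrable_dir e)
            have hA1 : Integrable (fun x => (1 + 1 / (2 * D)) *
                (‖e‖ ^ 2 - ⟪x, e⟫ ^ 2 / ‖x‖ ^ 2)) (stdGaussian (Vec (n + 1))) := hA.const_mul _
            have hA2 : Integrable (fun x => q ^ r * ((1 + 1 / (2 * D)) *
                (‖e‖ ^ 2 - ⟪x, e⟫ ^ 2 / ‖x‖ ^ 2) + D ^ 2 / (N : ℝ) ^ 2))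
                (stdGaussian (Vec (n + 1))) :=
              (hA1.add (integrable_const (D ^ 2 / (N : ℝ) ^ 2))).const_mul _
            simp only [hJ]
            rw [integral_add hA2 (integrable_const _), integral_const_mul,
              integral_add hA1 (integrable_const _), integral_const_mul,
              integral_sub (integrable_const _) (integrable_dir e), integral_dir]
            simp [hD]
          rw [hint]
          have hkey : (1 + 1 / (2 * D)) * (‖e‖ ^ 2 - ‖e‖ ^ 2 / D) ≤ q * ‖e‖ ^ 2 := by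
            have hid : (1 + 1 / (2 * D)) * (1 - 1 / D) = q - 1 / (2 * D ^ 2) := by
              rw [hq]; field_simp; ring
            have h4 : (1 + 1 / (2 * D)) * (‖e‖ ^ 2 - ‖e‖ ^ 2 / D) =
                (q - 1 / (2 * D ^ 2)) * ‖e‖ ^ 2 := by rw [← hid]; ring
            rw [h4]
            refine mul_le_mul_of_nonneg_right ?_ (sq_nonneg _)
            linarith [show (0 : ℝ) ≤ 1 / (2 * D ^ 2) by positivity]
          have hc0 : D ^ 2 / (N : ℝ) ^ 2 = (1 - q) * B := by
            rw [hq, hB]; field_simp; ring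
          calc q ^ r * ((1 + 1 / (2 * D)) * (‖e‖ ^ 2 - ‖e‖ ^ 2 / D) + D ^ 2 / N ^ 2) +
                (1 - q ^ r) * B ≤ q ^ r * (q * ‖e‖ ^ 2 + D ^ 2 / N ^ 2) + (1 - q ^ r) * B := by
                gcongr
            _ = _ := by rw [hc0, pow_succ]; ring

lemma arccos_inner_normalize_le {z s : Vec d} {ε : ℝ} (hε : 0 < ε) (hεπ : ε ≤ Real.pi)
    (hε4 : ε < 4) (hs : ‖s‖ = 1) (h : ‖z - s‖ ≤ ε / 4) :
    z ≠ 0 ∧ Real.arccos ⟪‖z‖⁻¹ • z, s⟫ ≤ ε := by
  have hz : z ≠ 0 := by
    rintro rfl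
    rw [zero_sub, norm_neg, hs] at h
    linarith
  refine ⟨hz, ?_⟩
  set u := ‖z‖⁻¹ • z with hu
  have hu1 : ‖u‖ = 1 := norm_smul_inv_norm hz
  have hn : |1 - ‖z‖| ≤ ε / 4 := by
    rw [← hs, abs_sub_comm]
    exact (abs_norm_sub_norm_le _ _).trans h
  have huz : ‖u - z‖ = |1 - ‖z‖| := by
    have h0 : u - z = (‖z‖⁻¹ - 1) • z := by rw [hu, sub_smul, one_smul]
    rw [h0, norm_smul, Real.norm_eq_abs, ← abs_norm z, ← abs_mul]
    rw [abs_norm, sub_mul, inv_mul_cancel₀ (norm_ne_zero_iff.2 hz), one_mul]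
  have hus : ‖u - s‖ ≤ ε / 2 :=
    (norm_sub_le_norm_sub_add_norm_sub u z s).trans (by rw [huz]; linarith)
  have h2 := pow_le_pow_left₀ (norm_nonneg _) hus 2
  rw [norm_sub_sq_real, hu1, hs] at h2
  have hcos : Real.cos ε ≤ ⟪u, s⟫ := by
    have hc := Real.cos_le_one_sub_mul_cos_sq (x := ε) (by rwa [abs_of_pos hε])
    have hpi : (1 : ℝ) / 8 ≤ 2 / Real.pi ^ 2 := by
      rw [le_div_iff₀ (by positivity)]
      nlinarith [Real.pi_lt_four, Real.pi_pos]
    nlinarith [mul_le_mul_of_nonneg_right hpi (sq_nonneg ε)]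
  calc Real.arccos ⟪u, s⟫ ≤ Real.arccos (Real.cos ε) := Real.arccos_le_arccos hcos
    _ = ε := Real.arccos_cos hε.le hεπ

/-- The quantised Kaczmarz learner with a given encoding of grid states. -/
noncomputable def kaczLearner (n N : ℕ) {K : ℕ} (enc : (Fin (n + 1) → Fin (2 * N + 1)) → Fin K)
    (dec : Fin K → Fin (n + 1) → Fin (2 * N + 1)) (Ω : Type*) [MeasurableSpace Ω] :
    Learner (n + 1) K Ω where
  init _ := enc fun _ => gridIdx N 0
  init_meas := measurable_const
  step _ w p := enc (kaczGrid N (dec w) p.2.1 p.2.2)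
  step_meas _ w := by
    refine (measurable_of_finite enc).comp (measurable_pi_iff.2 fun i => ?_)
    refine (measurable_gridIdx N).comp ?_
    unfold kacz
    fun_prop
  halt _ _ _ := false
  halt_meas _ _ := measurable_const
  out _ w _ := if gridPt N (dec w) = 0 then EuclideanSpace.single 0 1
    else ‖gridPt N (dec w)‖⁻¹ • gridPt N (dec w)
  out_meas _ _ := measurable_const
  out_unit _ w _ := by
    split
    · simp
    · exact norm_smul_inv_norm (by assumption)

lemma kaczLearner_run {n N K : ℕ} (enc : (Fin (n + 1) → Fin (2 * N + 1)) → Fin K)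
    (dec : Fin K → Fin (n + 1) → Fin (2 * N + 1)) {Ω : Type*} [MeasurableSpace Ω] (ω : Ω)
    (s : Vec (n + 1)) : ∀ (r t : ℕ) (w : Fin K) (x : Fin r → Vec (n + 1)),
    ((kaczLearner n N enc dec Ω).run ω s r t w x).2 =
      fold (fun _ w x y => enc (kaczGrid N (dec w) x y)) r t w x (lab x s)
  | 0, t, w, x => rfl
  | r + 1, t, w, x => by
    rw [Learner.run]
    simp only [kaczLearner, Bool.false_eq_true, if_false]
    exact kaczLearner_run enc dec ω s r (t + 1) _ _

/-- The upper bound: quantised Kaczmarz. -/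
theorem kaczmarz_upper (d : ℕ) (hd : 2 ≤ d) (ε : ℝ) (hε : 0 < ε) (hε0 : ε < Real.exp (-80))
    (K : ℕ) (hK : (32 * (d : ℝ) ^ 2 / ε) ^ d ≤ K) :
    ∃ (A : Learner d K PUnit) (T : ℕ),
      (T : ℝ) ≤ 6 * d * Real.log (1 / ε) ∧ (∀ t t' w ω, A.out t w ω = A.out t' w ω) ∧
        A.Succeeds (Measure.dirac PUnit.unit) T ε := by
  obtain ⟨n, rfl⟩ : ∃ n, d = n + 1 := ⟨d - 1, by omega⟩
  set L := Real.log (1 / ε) with hL
  have hεL : ε = Real.exp (-L) := by rw [hL, one_div, Real.log_inv, neg_neg, Real.exp_log hε]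
  have hL80 : 80 < L := by rw [hεL] at hε0; linarith [Real.exp_lt_exp.1 hε0]
  have hε1 : ε < 1 := hε0.trans (Real.exp_lt_one_iff.2 (by norm_num))
  set D : ℝ := ((n + 1 : ℕ) : ℝ) with hD
  have hD1 : 1 ≤ D := by rw [hD]; exact_mod_cast (by omega : 1 ≤ n + 1)
  set N := ⌈14 * D ^ 2 / ε⌉₊ with hN'
  have hNlow : 14 * D ^ 2 / ε ≤ (N : ℝ) := Nat.le_ceil _
  have hbig : 14 ≤ 14 * D ^ 2 / ε := by
    rw [le_div_iff₀ hε]; nlinarith
  have hN : 0 < N := by
    have : (0 : ℝ) < N := lt_of_lt_of_le (by norm_num) (hbig.trans hNlow)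
    exact_mod_cast this
  have hNhigh : (N : ℝ) ≤ 14 * D ^ 2 / ε + 1 := (Nat.ceil_lt_add_one (by positivity)).le
  have hcard : Fintype.card (Fin (n + 1) → Fin (2 * N + 1)) ≤ K := by
    have h1 : ((2 * N + 1 : ℕ) : ℝ) ≤ 32 * D ^ 2 / ε := by
      push_cast
      have h2 : 32 * D ^ 2 / ε = 2 * (14 * D ^ 2 / ε) + 4 * D ^ 2 / ε := by ring
      have h3 : 3 ≤ 4 * D ^ 2 / ε := by rw [le_div_iff₀ hε]; nlinarith
      linarith
    have h4 : (((2 * N + 1) ^ (n + 1) : ℕ) : ℝ) ≤ K := by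
      rw [Nat.cast_pow]
      exact (pow_le_pow_left₀ (by positivity) h1 _).trans hK
    rw [Fintype.card_fun, Fintype.card_fin, Fintype.card_fin]
    exact_mod_cast h4
  obtain ⟨emb⟩ : Nonempty ((Fin (n + 1) → Fin (2 * N + 1)) ↪ Fin K) :=
    Function.Embedding.nonempty_of_card_le (by simpa using hcard)
  set dec : Fin K → Fin (n + 1) → Fin (2 * N + 1) := Function.invFun emb with hdec
  have hde : ∀ k, dec (emb k) = k := Function.leftInverse_invFun emb.injective
  set T := ⌈2 * D * (2 * L + 5)⌉₊ with hT'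
  refine ⟨kaczLearner n N emb dec PUnit, T, ?_, fun _ _ _ _ => rfl, ?_⟩
  · have h1 := Nat.ceil_lt_add_one (show 0 ≤ 2 * D * (2 * L + 5) by positivity)
    rw [← hT'] at h1
    have h2 : 11 ≤ D * (2 * L) := by nlinarith
    nlinarith
  set A := kaczLearner n N emb dec PUnit with hA
  set g : ℕ → Fin K → Vec (n + 1) → ℝ → Fin K :=
    fun _ w x y => emb (kaczGrid N (dec w) x y) with hg'
  have hg : ∀ t w, Measurable fun p : Vec (n + 1) × ℝ => g t w p.1 p.2 := fun t w => by
    refine (measurable_of_finite emb).comp (measurable_pi_iff.2 fun i => ?_)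
    refine (measurable_gridIdx N).comp ?_
    unfold kacz
    fun_prop
  set F : Fin K → Vec (n + 1) → ℝ≥0∞ :=
    fun w s => ENNReal.ofReal (‖gridPt N (dec w) - s‖ ^ 2) with hF
  have hbound : ∀ s : Vec (n + 1), ‖s‖ = 1 →
      val g F T 0 (emb fun _ => gridIdx N 0) s ≤ ENNReal.ofReal (ε ^ 2 / 48) := by
    intro s hs
    refine (val_kacz_le hN hg dec (fun t w x y => hde _) hs T 0 _).trans
      (ENNReal.ofReal_le_ofReal ?_)
    rw [hde]
    have h0 : gridPt N (fun _ : Fin (n + 1) => gridIdx N 0) = 0 := by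
      ext i
      simp [gridPt, gridVal, gridIdx, clip]
    rw [h0, zero_sub, norm_neg, hs, one_pow, mul_one, show (n : ℝ) + 1 = D by rw [hD]; push_cast; rfl]
    set q : ℝ := 1 - 1 / (2 * D) with hq
    have hq0 : 0 ≤ q := by rw [hq, sub_nonneg, div_le_one (by positivity)]; linarith
    have h1 : q ^ T ≤ ε ^ 2 / 96 := by
      calc q ^ T ≤ Real.exp (-(1 / (2 * D))) ^ T := by
            refine pow_le_pow_left₀ hq0 ?_ _
            rw [hq]; linarith [Real.add_one_le_exp (-(1 / (2 * D)))]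
        _ = Real.exp (-((T : ℝ) / (2 * D))) := by rw [← Real.exp_nat_mul]; ring_nf
        _ ≤ Real.exp (-(2 * L + 5)) := by
            refine Real.exp_le_exp.2 (neg_le_neg ?_)
            rw [le_div_iff₀ (by positivity), mul_comm]
            exact Nat.le_ceil _
        _ = ε ^ 2 * Real.exp (-5) := by
            rw [hεL, pow_two, ← Real.exp_add, ← Real.exp_add]; ring_nf
        _ ≤ ε ^ 2 / 96 := by
            rw [div_eq_mul_inv]
            refine mul_le_mul_of_nonneg_left ?_ (sq_nonneg ε)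
            have h5 : (96 : ℝ) ≤ Real.exp 5 := by
              rw [show (5 : ℝ) = ((5 : ℕ) : ℝ) * 1 by norm_num, Real.exp_nat_mul]
              calc (96 : ℝ) ≤ (2.7 : ℝ) ^ 5 := by norm_num
                _ ≤ _ := pow_le_pow_left₀ (by norm_num) (by linarith [Real.exp_one_gt_d9]) 5
            rw [Real.exp_neg]
            exact inv_anti₀ (by norm_num) h5
    have h2 : 2 * D ^ 3 / (N : ℝ) ^ 2 ≤ ε ^ 2 / 96 := by
      have hN2 : (14 * D ^ 2 / ε) ^ 2 ≤ (N : ℝ) ^ 2 :=
        pow_le_pow_left₀ (by positivity) hNlow 2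
      calc 2 * D ^ 3 / (N : ℝ) ^ 2 ≤ 2 * D ^ 3 / (14 * D ^ 2 / ε) ^ 2 := by gcongr
        _ = ε ^ 2 / 98 / D := by field_simp; ring
        _ ≤ ε ^ 2 / 98 := div_le_self (by positivity) hD1
        _ ≤ _ := by gcongr; norm_num
    have h3 : 0 ≤ q ^ T * (2 * D ^ 3 / (N : ℝ) ^ 2) := by positivity
    linarith
  unfold Learner.Succeeds
  set π := (sphereLaw (n + 1)).prod (Measure.pi fun _ : Fin T => stdGaussian (Vec (n + 1))) with hπ
  set E := {p : PUnit × Vec (n + 1) × (Fin T → Vec (n + 1)) |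
    Real.arccos ⟪A.estimate T p.1 p.2.1 p.2.2, p.2.1⟫ ≤ ε} with hE
  have hEm : MeasurableSet E :=
    measurableSet_le (Real.continuous_arccos.measurable.comp
      ((A.measurable_estimate T).inner measurable_snd.fst)) measurable_const
  rw [Measure.prod_apply hEm, lintegral_dirac]
  set G := Prod.mk PUnit.unit ⁻¹' E with hG
  have hGm : MeasurableSet G := measurable_prodMk_left hEm
  have hfail : π Gᶜ ≤ 1 / 3 := by
    rw [hπ, Measure.prod_apply hGm.compl]
    refine (lintegral_mono_ae (g := fun _ => (1 / 3 : ℝ≥0∞)) ?_).trans (by simp)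
    filter_upwards [sphereLaw_norm_ne n] with s hs
    have hmono : (Measure.pi fun _ : Fin T => stdGaussian (Vec (n + 1))) (Prod.mk s ⁻¹' Gᶜ) ≤
        ENNReal.ofReal (16 / ε ^ 2) * val g F T 0 (emb fun _ => gridIdx N 0) s := by
      rw [val, ← lintegral_const_mul' _ _ ENNReal.ofReal_ne_top,
        ← lintegral_indicator_one (measurable_prodMk_left hGm.compl)]
      refine lintegral_mono fun X => ?_
      by_cases hX : X ∈ Prod.mk s ⁻¹' Gᶜ
      · rw [Set.indicator_of_mem hX, Pi.one_apply, hF, ← ENNReal.ofReal_mul (by positivity),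
          ← ENNReal.ofReal_one]
        refine ENNReal.ofReal_le_ofReal ?_
        set z := gridPt N (dec (fold g T 0 (emb fun _ => gridIdx N 0) X (lab X s))) with hz
        have hfar : ε / 4 ≤ ‖z - s‖ := by
          by_contra hc
          obtain ⟨hz0, hle⟩ := arccos_inner_normalize_le hε
            (by linarith [Real.two_le_pi]) (by linarith) hs (not_le.1 hc).le
          refine hX (show Real.arccos ⟪A.estimate T PUnit.unit s X, s⟫ ≤ ε from ?_)
          have hrun := kaczLearner_run emb dec PUnit.unit s T 0 (emb fun _ => gridIdx N 0) X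
          have hest : A.estimate T PUnit.unit s X = ‖z‖⁻¹ • z := by
            simp only [hA, Learner.estimate, kaczLearner]
            simp only [kaczLearner] at hrun
            rw [hrun]
            exact if_neg hz0
          rwa [hest]
        calc (1 : ℝ) = 16 / ε ^ 2 * (ε / 4) ^ 2 := by field_simp; ring
          _ ≤ _ := mul_le_mul_of_nonneg_left (pow_le_pow_left₀ (by positivity) hfar 2)
              (by positivity)
      · rw [Set.indicator_of_notMem hX]; exact zero_le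
    refine hmono.trans ((mul_le_mul_right (hbound s hs) _).trans (le_of_eq ?_))
    rw [← ENNReal.ofReal_mul (by positivity), show 16 / ε ^ 2 * (ε ^ 2 / 48) = (1 / 3 : ℝ) by
      field_simp; ring, ENNReal.ofReal_div_of_pos (by norm_num), ENNReal.ofReal_one,
      ENNReal.ofReal_ofNat]
  have h1 : π G + π Gᶜ = 1 := by rw [measure_add_measure_compl hGm]; simp [hπ]
  have h2 : (2 / 3 : ℝ≥0∞) + 1 / 3 ≤ π G + 1 / 3 := by
    calc (2 / 3 : ℝ≥0∞) + 1 / 3 = 1 := by
          rw [ENNReal.div_add_div_same, show (2 : ℝ≥0∞) + 1 = 3 by norm_num,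
            ENNReal.div_self (by norm_num) (by norm_num)]
      _ = π G + π Gᶜ := h1.symm
      _ ≤ π G + 1 / 3 := add_le_add le_rfl hfail
  exact (ENNReal.add_le_add_iff_right (by simp)).1 h2

/-- Counting: with too few states no horizon suffices, if the output reads only the final state. -/
theorem counting_bound {n K : ℕ} {Ω : Type*} [MeasurableSpace Ω] (A : Learner (n + 1) K Ω)
    (P : Measure Ω) [IsProbabilityMeasure P] (hout : ∀ t t' w ω, A.out t w ω = A.out t' w ω)
    (T : ℕ) {ε : ℝ} (hε : 0 < ε) (hK : (K : ℝ) * (2 ^ (n + 1) * ε ^ n) < 2 / 3) :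
    ¬A.Succeeds P T ε := by
  intro hs
  have hb : ∀ ω, ((sphereLaw (n + 1)).prod (rowsLaw (n + 1) T))
      {q | ‖q.1 - A.estimate T ω q.1 q.2‖ ≤ ε} ≤
        (K : ℝ≥0∞) * ENNReal.ofReal (2 ^ (n + 1) * ε ^ n) := by
    intro ω
    refine (measure_mono (t := ⋃ w : Fin K,
      Metric.closedBall (A.out 0 w ω) ε ×ˢ (Set.univ : Set (Fin T → Vec (n + 1)))) ?_).trans ?_
    · intro q hq
      refine Set.mem_iUnion.2 ⟨(A.run ω q.1 T 0 (A.init ω) q.2).2, ?_, trivial⟩
      rw [Metric.mem_closedBall, dist_eq_norm, hout 0 (A.run ω q.1 T 0 (A.init ω) q.2).1]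
      exact hq
    · refine (measure_iUnion_fintype_le _ _).trans ?_
      refine (Finset.sum_le_card_nsmul _ _ (ENNReal.ofReal (2 ^ (n + 1) * ε ^ n)) fun v _ => ?_).trans
        (le_of_eq (by simp))
      rw [Measure.prod_prod, measure_univ, mul_one]
      exact sphereLaw_closedBall_le n _ hε
  have h := le_trans hs (A.success_le P T le_rfl hb)
  rw [← ENNReal.ofReal_natCast, ← ENNReal.ofReal_mul (by positivity),
    show (2 / 3 : ℝ≥0∞) = ENNReal.ofReal (2 / 3) by
      rw [ENNReal.ofReal_div_of_pos (by norm_num)]; simp,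
    ENNReal.ofReal_le_ofReal_iff (by positivity)] at h
  linarith

end Vale.Agent.P309
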