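import Vale.Agent.P309.Machine

/-!
# Learners with few bits need many samples
-/

namespace Vale.Agent.P309

open MeasureTheory ProbabilityTheory Filter Topology
open scoped RealInnerProductSpace ENNReal

variable {d K : ℕ} {Ω : Type*} [MeasurableSpace Ω]

/-- The one-row update obtained from a learner with a fixed seed; the second component records the
stopping time (`0` while running). -/
noncomputable def Learner.update (A : Learner d K Ω) (T : ℕ) (ω : Ω) (t : ℕ)
    (st : Fin K × Fin (T + 1)) (x : Vec d) (y : ℝ) : Fin K × Fin (T + 1) :=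
  if h : st.2 = 0 ∧ t < T then
    (A.step t st.1 (ω, x, y), if A.halt t st.1 (ω, x, y) then ⟨t + 1, by omega⟩ else 0)
  else st

/-- The estimate read off an extended state. -/
def Learner.readOut (A : Learner d K Ω) (T : ℕ) (ω : Ω) (st : Fin K × Fin (T + 1)) : Vec d :=
  A.out (if st.2 = 0 then T else st.2.val) st.1 ω

lemma Learner.measurable_update (A : Learner d K Ω) (T : ℕ) (ω : Ω) (t : ℕ)
    (st : Fin K × Fin (T + 1)) :
    Measurable fun p : Vec d × ℝ => A.update T ω t st p.1 p.2 := by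
  unfold Learner.update
  by_cases h : st.2 = 0 ∧ t < T
  · simp only [dif_pos h]
    have hp : Measurable fun p : Vec d × ℝ => ((ω, p.1, p.2) : Ω × Vec d × ℝ) := by fun_prop
    exact ((A.step_meas t st.1).comp hp).prodMk
      (Measurable.ite (((A.halt_meas t st.1).comp hp) (measurableSet_singleton true))
        measurable_const measurable_const)
  · simp only [dif_neg h]
    exact measurable_const

lemma Learner.fold_update_of_fixed (A : Learner d K Ω) (T : ℕ) (ω : Ω) :
    ∀ (r t : ℕ) (st : Fin K × Fin (T + 1)) (X : Fin r → Vec d) (Y : Fin r → ℝ),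
      (st.2 ≠ 0 ∨ T ≤ t) → fold (A.update T ω) r t st X Y = st
  | 0, _, _, _, _, _ => rfl
  | r + 1, t, st, X, Y, h => by
    have h' : ¬(st.2 = 0 ∧ t < T) := fun hh => h.elim (fun a => a hh.1) (by omega)
    rw [fold, show A.update T ω t st (X 0) (Y 0) = st from dif_neg h']
    exact fold_update_of_fixed A T ω r (t + 1) st _ _ (h.imp_right (by omega))

lemma Learner.readOut_fold (A : Learner d K Ω) (T : ℕ) (ω : Ω) (s : Vec d) :
    ∀ (r t : ℕ) (w : Fin K) (x : Fin r → Vec d), t + r = T →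
      A.readOut T ω (fold (A.update T ω) r t (w, 0) x (lab x s)) =
        A.out (A.run ω s r t w x).1 (A.run ω s r t w x).2 ω
  | 0, t, w, x, h => by simp [fold, Learner.readOut, Learner.run, show t = T by omega]
  | r + 1, t, w, x, h => by
    have ht : t < T := by omega
    rw [fold, Learner.run, Learner.update, dif_pos ⟨rfl, ht⟩]
    by_cases hh : A.halt t w (ω, x 0, ⟪x 0, s⟫) = true
    · rw [if_pos hh, show lab x s 0 = ⟪x 0, s⟫ from rfl, if_pos hh,
        A.fold_update_of_fixed T ω r _ _ _ _ (Or.inl (by simp [Fin.ext_iff]))]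
      simp [Learner.readOut, Fin.ext_iff]
    · rw [if_neg hh, show lab x s 0 = ⟪x 0, s⟫ from rfl, if_neg hh]
      exact A.readOut_fold T ω s r (t + 1) _ (Fin.tail x) (by omega)

lemma Learner.run_le (A : Learner d K Ω) (ω : Ω) (s : Vec d) :
    ∀ (r t : ℕ) (w : Fin K) (x : Fin r → Vec d), (A.run ω s r t w x).1 ≤ t + r
  | 0, t, w, x => le_rfl
  | r + 1, t, w, x => by
    rw [Learner.run]
    split
    · simp only; omega
    · exact (A.run_le ω s r _ _ _).trans (by omega)

lemma Learner.measurable_run (A : Learner d K Ω) :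
    ∀ (r t : ℕ) (w : Fin K),
      Measurable fun q : Ω × Vec d × (Fin r → Vec d) => A.run q.1 q.2.1 r t w q.2.2
  | 0, t, w => by simpa [Learner.run] using measurable_const
  | r + 1, t, w => by
    simp only [Learner.run]
    have hp : Measurable fun q : Ω × Vec d × (Fin (r + 1) → Vec d) =>
        ((q.1, q.2.2 0, ⟪q.2.2 0, q.2.1⟫) : Ω × Vec d × ℝ) := by fun_prop
    have hstep := (A.step_meas t w).comp hp
    have ht : Measurable fun q : Ω × Vec d × (Fin (r + 1) → Vec d) =>
        ((q.1, q.2.1, Fin.tail q.2.2) : Ω × Vec d × (Fin r → Vec d)) :=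
      measurable_fst.prodMk ((measurable_fst.comp measurable_snd).prodMk
        (measurable_pi_iff.2 fun (i : Fin r) => (measurable_pi_apply (i.succ : Fin (r + 1))).comp
          ((measurable_snd (α := Vec d) (β := Fin (r + 1) → Vec d)).comp
            (measurable_snd (α := Ω)))))
    refine Measurable.ite (((A.halt_meas t w).comp hp) (measurableSet_singleton true))
      (measurable_const.prodMk hstep) ?_
    exact (measurable_from_prod_countable_right
      (f := fun p : Fin K × (Ω × Vec d × (Fin r → Vec d)) =>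
        A.run p.2.1 p.2.2.1 r (t + 1) p.1 p.2.2.2)
      (fun w' => A.measurable_run r (t + 1) w')).comp (hstep.prodMk ht)

lemma Learner.measurable_estimate (A : Learner d K Ω) (T : ℕ) :
    Measurable fun q : Ω × Vec d × (Fin T → Vec d) => A.estimate T q.1 q.2.1 q.2.2 := by
  have h1 : Measurable fun p : (ℕ × Fin K) × Ω => A.out p.1.1 p.1.2 p.2 :=
    measurable_from_prod_countable_right fun v => A.out_meas v.1 v.2
  have h2 : Measurable fun p : Fin K × (Ω × Vec d × (Fin T → Vec d)) =>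
      A.run p.2.1 p.2.2.1 T 0 p.1 p.2.2.2 :=
    measurable_from_prod_countable_right fun w => A.measurable_run T 0 w
  exact h1.comp ((h2.comp ((A.init_meas.comp measurable_fst).prodMk measurable_id)).prodMk
    measurable_fst)

lemma norm_sub_le_of_arccos {u v : Vec d} {ε : ℝ} (hu : ‖u‖ = 1) (hv : ‖v‖ = 1)
    (h : Real.arccos ⟪u, v⟫ ≤ ε) : ‖v - u‖ ≤ ε := by
  set θ := Real.arccos ⟪u, v⟫ with hθ
  have h0 : 0 ≤ θ := Real.arccos_nonneg _
  have habs : |⟪u, v⟫| ≤ 1 := by simpa [hu, hv] using abs_real_inner_le_norm u v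
  have hc : ⟪u, v⟫ = Real.cos θ :=
    (Real.cos_arccos (abs_le.1 habs).1 (abs_le.1 habs).2).symm
  have h1 := Real.one_sub_sq_div_two_le_cos (x := θ)
  have h2 : ‖v - u‖ ^ 2 ≤ θ ^ 2 := by
    rw [norm_sub_sq_real, hu, hv, real_inner_comm, hc]
    linarith
  exact (pow_le_pow_iff_left₀ (norm_nonneg _) h0 two_ne_zero).1 h2 |>.trans h

/-- Bound on the probability of landing within `δ` of the signal, when it holds for every seed. -/
lemma Learner.success_le {n : ℕ} {K : ℕ} (A : Learner (n + 1) K Ω) (P : Measure Ω)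
    [IsProbabilityMeasure P] (T : ℕ) {ε δ : ℝ} (hεδ : ε ≤ δ) {B : ℝ≥0∞}
    (hB : ∀ ω, ((sphereLaw (n + 1)).prod (rowsLaw (n + 1) T))
      {q | ‖q.1 - A.estimate T ω q.1 q.2‖ ≤ δ} ≤ B) :
    (P.prod ((sphereLaw (n + 1)).prod (Measure.pi fun _ : Fin T => stdGaussian (Vec (n + 1)))))
      {p | Real.arccos ⟪A.estimate T p.1 p.2.1 p.2.2, p.2.1⟫ ≤ ε} ≤ B := by
  have hm : MeasurableSet {p : Ω × Vec (n + 1) × (Fin T → Vec (n + 1)) |
      Real.arccos ⟪A.estimate T p.1 p.2.1 p.2.2, p.2.1⟫ ≤ ε} :=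
    measurableSet_le (Real.continuous_arccos.measurable.comp
      ((A.measurable_estimate T).inner measurable_snd.fst)) measurable_const
  rw [Measure.prod_apply hm]
  refine (lintegral_mono (g := fun _ => B) fun ω => ?_).trans (by simp)
  refine le_trans (measure_mono_ae ?_) (hB ω)
  have hns : ∀ᵐ q : Vec (n + 1) × (Fin T → Vec (n + 1))
      ∂(sphereLaw (n + 1)).prod (rowsLaw (n + 1) T), ‖q.1‖ = 1 :=
    Measure.quasiMeasurePreserving_fst.ae (sphereLaw_norm_ne n)
  filter_upwards [hns] with q hq hmem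
  exact (norm_sub_le_of_arccos (A.out_unit _ _ _) hq hmem).trans hεδ

/-- Many windows: success is exponentially unlikely. -/
lemma Learner.prob_le_windows {n : ℕ} (A : Learner (n + 1) K Ω) {T m R J : ℕ} (hm : 16 ≤ m)
    (hn : 16 * m ≤ n + 1) (hn' : n + 1 < 16 * (m + 1))
    (hK : ((K * (T + 1) : ℕ) : ℝ≥0∞) ≤ 2 ^ (10 * m * m)) (hJ : 11 * R + 8 ≤ J)
    (hT : T ≤ R * m) (ω : Ω) :
    ((sphereLaw (n + 1)).prod (rowsLaw (n + 1) T))
      {q | ‖q.1 - A.estimate T ω q.1 q.2‖ ≤ (1 / 2 : ℝ) ^ J} ≤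
      (R : ℝ≥0∞) * windowErr m + 2 * (2 ^ (12 * m))⁻¹ + (2 ^ m)⁻¹ := by
  set g := A.update T ω with hg'
  have hg : ∀ t w, Measurable fun p : Vec (n + 1) × ℝ => g t w p.1 p.2 :=
    A.measurable_update T ω
  set F : Fin K × Fin (T + 1) → Vec (n + 1) → ℝ≥0∞ :=
    fun w => (dball (A.readOut T ω w) J).indicator 1 with hF
  have hFm : ∀ w, Measurable (F w) := fun w =>
    measurable_one.indicator (measurableSet_dball _ _)
  have hms : MeasurableSet {q : Vec (n + 1) × (Fin T → Vec (n + 1)) |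
      ‖q.1 - A.estimate T ω q.1 q.2‖ ≤ (1 / 2 : ℝ) ^ J} :=
    measurableSet_le (measurable_fst.sub ((A.measurable_estimate T).comp
      (measurable_const.prodMk measurable_id))).norm measurable_const
  have hcard : (Fintype.card (Fin K × Fin (T + 1)) : ℝ≥0∞) ≤ 2 ^ (10 * m * m) := by
    simpa using hK
  have hstart := windows_start hm hn hn' hcard hJ hg (A.readOut T ω) (A.init ω, 0)
  refine le_trans ?_ hstart
  rw [Measure.prod_apply hms]
  refine le_of_eq (lintegral_congr fun s => ?_)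
  have hpad : ∀ w, val g F (R * m - T) (0 + T) w s = F w s := fun w => by
    rw [val]
    have : ∀ X : Fin (R * m - T) → Vec (n + 1),
        fold g (R * m - T) (0 + T) w X (lab X s) = w :=
      fun X => A.fold_update_of_fixed T ω _ _ w X _ (Or.inr (by omega))
    simp only [zero_add] at this ⊢
    simp [this]
  rw [show R * m = T + (R * m - T) by omega, val_add hFm hg]
  simp only [hpad]
  rw [← lintegral_indicator_one (measurable_prodMk_left hms)]
  refine lintegral_congr fun X => ?_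
  have he : A.readOut T ω (fold g T 0 (A.init ω, 0) X (lab X s)) = A.estimate T ω s X :=
    A.readOut_fold T ω s T 0 (A.init ω) X (by simp)
  simp only [hF, he]
  by_cases hX : ‖s - A.estimate T ω s X‖ ≤ (1 / 2 : ℝ) ^ J
  · rw [Set.indicator_of_mem (by exact hX),
      Set.indicator_of_mem (show s ∈ dball _ _ by simpa [dball, dist_eq_norm] using hX)]
    rfl
  · rw [Set.indicator_of_notMem (by exact hX),
      Set.indicator_of_notMem (show s ∉ dball _ _ by simpa [dball, dist_eq_norm] using hX)]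

/-- Few states: success is unlikely whatever the number of samples. -/
lemma Learner.prob_le_count {n : ℕ} (A : Learner (n + 1) K Ω) (T : ℕ) {δ : ℝ} (hδ : 0 < δ)
    (ω : Ω) :
    ((sphereLaw (n + 1)).prod (rowsLaw (n + 1) T))
      {q | ‖q.1 - A.estimate T ω q.1 q.2‖ ≤ δ} ≤
      ((K * (T + 1) : ℕ) : ℝ≥0∞) * ENNReal.ofReal (2 ^ (n + 1) * δ ^ n) := by
  refine (measure_mono (t := ⋃ v : Fin K × Fin (T + 1),
    Metric.closedBall (A.out v.2.val v.1 ω) δ ×ˢ (Set.univ : Set (Fin T → Vec (n + 1)))) ?_).trans ?_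
  · intro q hq
    have h1 := A.run_le ω q.1 T 0 (A.init ω) q.2
    refine Set.mem_iUnion.2 ⟨((A.run ω q.1 T 0 (A.init ω) q.2).2,
      ⟨(A.run ω q.1 T 0 (A.init ω) q.2).1, by omega⟩), ⟨?_, trivial⟩⟩
    rw [Metric.mem_closedBall, dist_eq_norm]
    exact hq
  · refine (measure_iUnion_fintype_le _ _).trans ?_
    refine (Finset.sum_le_card_nsmul _ _ (ENNReal.ofReal (2 ^ (n + 1) * δ ^ n)) fun v _ => ?_).trans
      (le_of_eq (by simp))
    rw [Measure.prod_prod, measure_univ, mul_one]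
    exact sphereLaw_closedBall_le n _ hδ

lemma windowErr_le (m : ℕ) (hm : 1 ≤ m) :
    windowErr m ≤ 4 * ENNReal.ofReal ((2 / 3 : ℝ) ^ m) := by
  have h23 : (2 / 3 : ℝ≥0∞) ^ m = ENNReal.ofReal ((2 / 3 : ℝ) ^ m) := by
    rw [ENNReal.ofReal_pow (by norm_num), ENNReal.ofReal_div_of_pos (by norm_num)]
    simp
  have h2 : ∀ a, m ≤ a → ((2 : ℝ≥0∞) ^ a)⁻¹ ≤ ENNReal.ofReal ((2 / 3 : ℝ) ^ m) := by
    intro a ha
    rw [← two_inv_pow_eq]
    exact ENNReal.ofReal_le_ofReal ((pow_le_pow_of_le_one (by norm_num) (by norm_num) ha).trans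
      (pow_le_pow_left₀ (by norm_num) (by norm_num) _))
  rw [windowErr, h23]
  calc _ ≤ ENNReal.ofReal ((2 / 3 : ℝ) ^ m) + ENNReal.ofReal ((2 / 3 : ℝ) ^ m) +
        ENNReal.ofReal ((2 / 3 : ℝ) ^ m) + ENNReal.ofReal ((2 / 3 : ℝ) ^ m) := by
        gcongr <;> exact h2 _ (by omega)
    _ = _ := by ring

lemma state_count {m T : ℕ} {d : ℕ} (hm : 10 ≤ m) (hd : d < 16 * (m + 1))
    (hK : (K : ℝ) ≤ (2 : ℝ) ^ (1 / 64 * (d : ℝ) ^ 2)) (hT : T + 1 ≤ d * d) :
    ((K * (T + 1) : ℕ) : ℝ≥0∞) ≤ 2 ^ (10 * m * m) := by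
  have hd' : (d : ℝ) ≤ 16 * ((m : ℝ) + 1) := by exact_mod_cast hd.le
  have hm' : (10 : ℝ) ≤ (m : ℝ) := by exact_mod_cast hm
  have h1 : (K : ℝ) ≤ ((2 ^ (5 * m * m) : ℕ) : ℝ) := by
    refine hK.trans ?_
    rw [Nat.cast_pow, Nat.cast_ofNat, ← Real.rpow_natCast (2 : ℝ) (5 * m * m)]
    refine Real.rpow_le_rpow_of_exponent_le one_le_two ?_
    push_cast
    have h2 : (d : ℝ) ^ 2 ≤ (16 * ((m : ℝ) + 1)) ^ 2 := pow_le_pow_left₀ (by positivity) hd' 2
    nlinarith
  have h1' : K ≤ 2 ^ (5 * m * m) := by exact_mod_cast h1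
  have h3 : T + 1 ≤ 2 ^ (5 * m * m) := by
    have h4 : d ≤ 2 ^ (4 + m) := by
      have : m + 1 ≤ 2 ^ m := Nat.lt_two_pow_self
      rw [pow_add]
      omega
    calc T + 1 ≤ d * d := hT
      _ ≤ 2 ^ (4 + m) * 2 ^ (4 + m) := Nat.mul_le_mul h4 h4
      _ = 2 ^ (8 + 2 * m) := by rw [← pow_add]; ring_nf
      _ ≤ _ := Nat.pow_le_pow_right (by norm_num) (by nlinarith)
  calc ((K * (T + 1) : ℕ) : ℝ≥0∞) ≤ ((2 ^ (5 * m * m) * 2 ^ (5 * m * m) : ℕ) : ℝ≥0∞) :=
        Nat.cast_le.2 (Nat.mul_le_mul h1' h3)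
    _ = _ := by
        push_cast
        rw [← pow_add]
        ring_nf

/-- The lower bound: with at most `d^2/64` bits, accuracy `ε` needs at least `d log(1/ε)/1000`
samples. -/
theorem samples_lower_bound :
    ∃ d₀ : ℕ, ∀ d, d₀ ≤ d → ∀ ε : ℝ, 0 < ε → ε < Real.exp (-80) → ∀ K : ℕ,
      (K : ℝ) ≤ (2 : ℝ) ^ (1 / 64 * (d : ℝ) ^ 2) →
      ∀ (Ω : Type*) [MeasurableSpace Ω] (A : Learner d K Ω) (P : Measure Ω)
        [IsProbabilityMeasure P] (T : ℕ),
        A.Succeeds P T ε → 1 / 1000 * d * Real.log (1 / ε) ≤ T := by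
  have hlim : ∀ᶠ m : ℕ in atTop, 19 * ((m : ℝ) * (2 / 3 : ℝ) ^ m) < 1 / 2 := by
    have h := (tendsto_self_mul_const_pow_of_lt_one (r := (2 / 3 : ℝ)) (by norm_num)
      (by norm_num)).const_mul 19
    rw [mul_zero] at h
    exact h.eventually_lt_const (by norm_num)
  obtain ⟨m₀, hm₀⟩ := eventually_atTop.1 hlim
  refine ⟨16 * (m₀ + 40), fun d hd ε hε hε0 K hK Ω _ A P _ T hsucc => ?_⟩
  obtain ⟨n, rfl⟩ : ∃ n, d = n + 1 := ⟨d - 1, by omega⟩
  have hdm : m₀ + 40 ≤ (n + 1) / 16 := by omega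
  have hd40 : 640 ≤ n + 1 := by omega
  clear hd
  by_contra hlt
  rw [not_le] at hlt
  obtain ⟨L, hL⟩ : ∃ L, L = Real.log (1 / ε) := ⟨_, rfl⟩
  rw [← hL] at hlt
  have hεL : ε = Real.exp (-L) := by
    rw [hL, one_div, Real.log_inv, neg_neg, Real.exp_log hε]
  have hL80 : 80 < L := by
    rw [hεL] at hε0
    linarith [Real.exp_lt_exp.1 hε0]
  have hdR : (1 : ℝ) ≤ ((n + 1 : ℕ) : ℝ) := by norm_num
  obtain ⟨D, hD⟩ : ∃ D : ℝ, D = ((n + 1 : ℕ) : ℝ) := ⟨_, rfl⟩
  rw [← hD] at hdR hlt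
  have hD640 : (640 : ℝ) ≤ D := by rw [hD]; exact_mod_cast hd40
  clear hd40
  have h23 : (2 / 3 : ℝ≥0∞) = ENNReal.ofReal (2 / 3) := by
    rw [ENNReal.ofReal_div_of_pos (by norm_num)]; simp
  rcases le_or_gt L (2 * D) with hcase | hcase
  · set m := (n + 1) / 16 with hm
    have hm1 : 16 * m ≤ n + 1 := by omega
    have hm2 : n + 1 < 16 * (m + 1) := by omega
    have hm3 : m₀ + 40 ≤ m := by omega
    set R := T / m + 1 with hR
    have hTR : T ≤ R * m := by
      rw [hR, add_mul, one_mul]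
      have := Nat.div_add_mod T m
      have := Nat.mod_lt T (show m > 0 by omega)
      rw [mul_comm (T / m) m]
      omega
    set J := ⌊L⌋₊ with hJdef
    have hmD : D ≤ 32 * (m : ℝ) := by
      rw [hD]; exact_mod_cast (by omega : n + 1 ≤ 32 * m)
    have hmpos : (0 : ℝ) < m := by exact_mod_cast (show 0 < m by omega)
    have hRle : (R : ℝ) ≤ 32 / 1000 * L + 1 := by
      rw [hR]; push_cast
      have h1 : ((T / m : ℕ) : ℝ) ≤ (T : ℝ) / m := Nat.cast_div_le
      have h2 : (T : ℝ) / m ≤ 32 / 1000 * L := by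
        rw [div_le_iff₀ hmpos]
        nlinarith
      linarith
    have hJ : 11 * R + 8 ≤ J := by
      refine Nat.le_floor ?_
      push_cast
      linarith
    have hεJ : ε ≤ (1 / 2 : ℝ) ^ J := by
      calc ε = Real.exp (-L) := hεL
        _ ≤ Real.exp ((J : ℝ) * -1) := Real.exp_le_exp.2 (by
            have := Nat.floor_le (show 0 ≤ L by linarith)
            rw [← hJdef] at this
            linarith)
        _ = Real.exp (-1) ^ J := Real.exp_nat_mul _ _
        _ ≤ (1 / 2 : ℝ) ^ J := by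
            refine pow_le_pow_left₀ (Real.exp_pos _).le ?_ _
            have h := Real.exp_one_gt_d9
            have h2 : Real.exp (-1) * Real.exp 1 = 1 := by rw [← Real.exp_add]; simp
            nlinarith [Real.exp_pos (-1)]
    have hTd : T + 1 ≤ (n + 1) * (n + 1) := by
      have h1 : (T : ℝ) + 1 ≤ D * D := by nlinarith
      rw [hD] at h1
      exact_mod_cast h1
    have hR4 : R ≤ 4 * m := by
      have h1 : (R : ℝ) ≤ 4 * m := by clear * - hRle hcase hD640 hmD; nlinarith
      exact_mod_cast h1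
    have hb := A.success_le P T hεJ (fun ω => A.prob_le_windows (by omega) hm1 hm2
      (state_count (by omega) hm2 hK hTd) hJ hTR ω)
    set q := ENNReal.ofReal ((2 / 3 : ℝ) ^ m) with hq
    have h2q : ∀ a, m ≤ a → ((2 : ℝ≥0∞) ^ a)⁻¹ ≤ q := by
      intro a ha
      rw [← two_inv_pow_eq]
      exact ENNReal.ofReal_le_ofReal ((pow_le_pow_of_le_one (by norm_num) (by norm_num) ha).trans
        (pow_le_pow_left₀ (by norm_num) (by norm_num) _))
    have hsmall : (2 / 3 : ℝ≥0∞) ≤ ENNReal.ofReal (19 * ((m : ℝ) * (2 / 3 : ℝ) ^ m)) := by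
      calc (2 / 3 : ℝ≥0∞) ≤ (R : ℝ≥0∞) * windowErr m + 2 * (2 ^ (12 * m))⁻¹ + (2 ^ m)⁻¹ :=
            hsucc.trans hb
        _ ≤ ((4 * m : ℕ) : ℝ≥0∞) * (4 * q) + 2 * q + q := by
            gcongr
            · exact windowErr_le m (by omega)
            · exact h2q _ (by omega)
            · exact h2q _ le_rfl
        _ = ((16 * m + 3 : ℕ) : ℝ≥0∞) * q := by push_cast; ring
        _ ≤ ((19 * m : ℕ) : ℝ≥0∞) * q := by
            refine mul_le_mul_left (Nat.cast_le.2 ?_) _
            omega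
        _ = _ := by
            rw [hq, ← ENNReal.ofReal_natCast, ← ENNReal.ofReal_mul (by positivity)]
            push_cast
            ring_nf
    rw [h23, ENNReal.ofReal_le_ofReal_iff (by positivity)] at hsmall
    have := hm₀ m (by omega)
    linarith
  · have hb := A.success_le P T le_rfl (fun ω => A.prob_le_count T hε ω)
    have h1 : ((K * (T + 1) : ℕ) : ℝ≥0∞) * ENNReal.ofReal (2 ^ (n + 1) * ε ^ n) ≤
        ENNReal.ofReal (Real.exp (-1)) := by
      rw [← ENNReal.ofReal_natCast, ← ENNReal.ofReal_mul (by positivity)]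
      refine ENNReal.ofReal_le_ofReal ?_
      push_cast
      have hK' : (K : ℝ) ≤ Real.exp (1 / 64 * D ^ 2) := by
        refine hK.trans ?_
        rw [Real.rpow_def_of_pos two_pos, hD]
        refine Real.exp_le_exp.2 ?_
        nlinarith [Real.log_two_lt_d9, sq_nonneg ((n + 1 : ℕ) : ℝ)]
      have hT' : (T : ℝ) + 1 ≤ Real.exp D * Real.exp L := by
        calc (T : ℝ) + 1 ≤ D * L := by nlinarith
          _ ≤ Real.exp D * Real.exp L := by
              gcongr
              · linarith [Real.add_one_le_exp D]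
              · linarith [Real.add_one_le_exp L]
      have h2 : (2 : ℝ) ^ (n + 1) ≤ Real.exp D := by
        calc (2 : ℝ) ^ (n + 1) ≤ Real.exp 1 ^ (n + 1) :=
              pow_le_pow_left₀ (by norm_num) (by linarith [Real.add_one_le_exp (1 : ℝ)]) _
          _ = _ := by rw [← Real.exp_nat_mul, mul_one, hD]
      have hεn : ε ^ n = Real.exp (-((n : ℝ) * L)) := by
        rw [hεL, ← Real.exp_nat_mul]; ring_nf
      calc (K : ℝ) * ((T : ℝ) + 1) * (2 ^ (n + 1) * ε ^ n)
          ≤ Real.exp (1 / 64 * D ^ 2) * (Real.exp D * Real.exp L) *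
              (Real.exp D * Real.exp (-((n : ℝ) * L))) := by
            rw [hεn]; gcongr
        _ = Real.exp (1 / 64 * D ^ 2 + (D + L) + (D + -((n : ℝ) * L))) := by
            simp only [Real.exp_add]
        _ ≤ _ := by
            refine Real.exp_le_exp.2 ?_
            have hn' : (n : ℝ) = D - 1 := by rw [hD]; push_cast; ring
            rw [hn']
            nlinarith [mul_nonneg (show (0 : ℝ) ≤ D - 2 by linarith)
              (show (0 : ℝ) ≤ L - 2 * D by linarith)]
    have h3 := hsucc.trans (hb.trans h1)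
    rw [h23, ENNReal.ofReal_le_ofReal_iff (Real.exp_pos _).le] at h3
    have h := Real.exp_one_gt_d9
    have h2 : Real.exp (-1) * Real.exp 1 = 1 := by rw [← Real.exp_add]; simp
    nlinarith

end Vale.Agent.P309
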