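import Vale.Agent.P309.Window

/-!
# Machines with finitely many states and the induction over windows
-/

namespace Vale.Agent.P309

open MeasureTheory ProbabilityTheory
open scoped RealInnerProductSpace ENNReal

variable {d : ℕ} {S : Type*}

/-- Run a one-row update `g` on a block of rows `X` with labels `Y`. -/
def fold (g : ℕ → S → Vec d → ℝ → S) :
    (m : ℕ) → ℕ → S → (Fin m → Vec d) → (Fin m → ℝ) → S
  | 0, _, w, _, _ => w
  | m + 1, t, w, X, Y => fold g m (t + 1) (g t w (X 0) (Y 0)) (Fin.tail X) (Fin.tail Y)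

variable [Fintype S] [MeasurableSpace S] [MeasurableSingletonClass S]
  {g : ℕ → S → Vec d → ℝ → S}

lemma measurable_fold (hg : ∀ t w, Measurable fun p : Vec d × ℝ => g t w p.1 p.2) :
    ∀ (m t : ℕ) (w : S),
      Measurable fun p : (Fin m → Vec d) × (Fin m → ℝ) => fold g m t w p.1 p.2
  | 0, _, w => measurable_const
  | m + 1, t, w => by
    have h1 : Measurable fun q : S × ((Fin m → Vec d) × (Fin m → ℝ)) =>
        fold g m (t + 1) q.1 q.2.1 q.2.2 :=
      measurable_from_prod_countable_right fun w' => measurable_fold hg m (t + 1) w'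
    have h2 : Measurable fun p : (Fin (m + 1) → Vec d) × (Fin (m + 1) → ℝ) =>
        (g t w (p.1 0) (p.2 0), (Fin.tail p.1, Fin.tail p.2)) :=
      ((hg t w).comp (((measurable_pi_apply 0).comp measurable_fst).prodMk
        ((measurable_pi_apply 0).comp measurable_snd))).prodMk
        (Measurable.prodMk
          (measurable_pi_iff.2 fun (i : Fin m) =>
            (measurable_pi_apply (i.succ : Fin (m + 1))).comp
              (measurable_fst (α := Fin (m + 1) → Vec d) (β := Fin (m + 1) → ℝ)))
          (measurable_pi_iff.2 fun (i : Fin m) =>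
            (measurable_pi_apply (i.succ : Fin (m + 1))).comp
              (measurable_snd (α := Fin (m + 1) → Vec d) (β := Fin (m + 1) → ℝ))))
    exact h1.comp h2

/-- Expected reward `F` after reading `r` further rows labelled by the signal `s`. -/
noncomputable def val (g : ℕ → S → Vec d → ℝ → S) (F : S → Vec d → ℝ≥0∞) (r t : ℕ) (w : S)
    (s : Vec d) : ℝ≥0∞ :=
  ∫⁻ X, F (fold g r t w X (lab X s)) s ∂rowsLaw d r

lemma lintegral_rows_succ {r : ℕ} (H : (Fin (r + 1) → Vec d) → ℝ≥0∞) (hH : Measurable H) :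
    ∫⁻ X, H X ∂rowsLaw d (r + 1) =
      ∫⁻ x, ∫⁻ X, H (Fin.cons x X) ∂rowsLaw d r ∂stdGaussian (Vec d) := by
  have e := (measurePreserving_piFinSuccAbove
    (fun _ : Fin (r + 1) => stdGaussian (Vec d)) 0).symm
  rw [rowsLaw, ← e.lintegral_comp hH, lintegral_prod _ (by fun_prop)]
  simp [rowsLaw, MeasurableEquiv.piFinSuccAbove, Fin.insertNthEquiv, Fin.insertNth_zero']

lemma measurable_reward {F : S → Vec d → ℝ≥0∞} (hF : ∀ w, Measurable (F w))
    (hg : ∀ t w, Measurable fun p : Vec d × ℝ => g t w p.1 p.2) (r t : ℕ) (w : S) :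
    Measurable fun p : (Fin r → Vec d) × Vec d => F (fold g r t w p.1 (lab p.1 p.2)) p.2 :=
  (measurable_from_prod_countable_right (f := fun q : S × Vec d => F q.1 q.2) hF).comp
    (((measurable_fold hg r t w).comp (measurable_fst.prodMk measurable_lab)).prodMk measurable_snd)

lemma measurable_val {F : S → Vec d → ℝ≥0∞} (hF : ∀ w, Measurable (F w))
    (hg : ∀ t w, Measurable fun p : Vec d × ℝ => g t w p.1 p.2) (r t : ℕ) (w : S) :
    Measurable (val g F r t w) :=
  (measurable_reward hF hg r t w).lintegral_prod_left'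

lemma val_le_one {F : S → Vec d → ℝ≥0∞} (hF : ∀ w s, F w s ≤ 1) (r t : ℕ) (w : S) (s : Vec d) :
    val g F r t w s ≤ 1 :=
  (lintegral_mono fun X => hF _ s).trans (by simp)

lemma val_succ {F : S → Vec d → ℝ≥0∞} (hF : ∀ w, Measurable (F w))
    (hg : ∀ t w, Measurable fun p : Vec d × ℝ => g t w p.1 p.2) (r t : ℕ) (w : S) (s : Vec d) :
    val g F (r + 1) t w s =
      ∫⁻ x, val g F r (t + 1) (g t w x ⟪x, s⟫) s ∂stdGaussian (Vec d) := by
  have hm : Measurable fun X : Fin (r + 1) → Vec d =>
      F (fold g (r + 1) t w X (lab X s)) s :=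
    (measurable_reward hF hg (r + 1) t w).comp (measurable_id.prodMk measurable_const)
  rw [val, lintegral_rows_succ _ hm]
  rfl

lemma val_add {F : S → Vec d → ℝ≥0∞} (hF : ∀ w, Measurable (F w))
    (hg : ∀ t w, Measurable fun p : Vec d × ℝ => g t w p.1 p.2) (r : ℕ) :
    ∀ (m t : ℕ) (w : S) (s : Vec d), val g F (m + r) t w s =
      ∫⁻ X, val g F r (t + m) (fold g m t w X (lab X s)) s ∂rowsLaw d m := by
  intro m
  induction m with
  | zero => intro t w s; simp [fold]
  | succ m ih =>
    intro t w s
    have hm : Measurable fun X : Fin (m + 1) → Vec d =>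
        val g F r (t + (m + 1)) (fold g (m + 1) t w X (lab X s)) s :=
      (measurable_from_prod_countable_right (f := fun q : S × Vec d =>
          val g F r (t + (m + 1)) q.1 q.2) (fun w' => measurable_val hF hg r (t + (m + 1)) w')).comp
        (((measurable_fold hg (m + 1) t w).comp (measurable_id.prodMk
          (measurable_lab.comp (measurable_id.prodMk measurable_const)))).prodMk measurable_const)
    rw [lintegral_rows_succ _ hm, show m + 1 + r = (m + r) + 1 by omega, val_succ hF hg]
    refine lintegral_congr fun x => (ih _ _ _).trans (lintegral_congr fun X => ?_)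
    rw [show t + 1 + m = t + (m + 1) by omega]
    rfl

lemma lintegral_val_window {F : S → Vec d → ℝ≥0∞} (hF : ∀ w, Measurable (F w))
    (hg : ∀ t w, Measurable fun p : Vec d × ℝ => g t w p.1 p.2) (r m t : ℕ) (w : S)
    (ν : Measure (Vec d)) :
    ∫⁻ s, val g F (m + r) t w s ∂ν =
      ∑ w', ∫⁻ s, val g F r (t + m) w' s * hit (fun p => fold g m t w p.1 p.2) w' s ∂ν := by
  have hW := measurable_fold hg m t w
  have hmul : ∀ w', Measurable fun s =>
      val g F r (t + m) w' s * hit (fun p => fold g m t w p.1 p.2) w' s := fun w' =>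
    (measurable_val hF hg r (t + m) w').mul (measurable_hit hW w')
  rw [← lintegral_finsetSum _ fun w' _ => hmul w']
  refine lintegral_congr fun s => ?_
  rw [val_add hF hg]
  have hV : Measurable fun X : Fin m → Vec d => fold g m t w X (lab X s) :=
    hW.comp (measurable_id.prodMk (measurable_lab.comp (measurable_id.prodMk measurable_const)))
  rw [← lintegral_map (f := fun w' => val g F r (t + m) w' s) (measurable_of_finite _) hV,
    lintegral_fintype]
  refine Finset.sum_congr rfl fun w' _ => ?_
  rw [Measure.map_apply hV (measurableSet_singleton w')]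
  rfl

/-- The exponent of the density after `i` windows. -/
def densExp (m i : ℕ) : ℕ := 32 * m * i + 2 * m

/-- The failure budget of one window. -/
noncomputable def windowErr (m : ℕ) : ℝ≥0∞ :=
  (2 ^ (8 * m))⁻¹ + (2 ^ (30 * m))⁻¹ + (2 / 3) ^ m + (2 ^ m)⁻¹

lemma depth_le {n m i h : ℕ} (hm : 16 ≤ m) (hn : 16 * m ≤ n + 1) (hn' : n + 1 < 16 * (m + 1))
    {z : Vec (n + 1)} (ν : Measure (Vec (n + 1))) [IsFiniteMeasure ν] (hν0 : ν Set.univ ≠ 0)
    (hν : IsSpread (12 * m) ν z h)
    (hd : ν ≤ (2 ^ (densExp m i + 12 * m * h) * ν Set.univ) • sphereLaw (n + 1)) :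
    h ≤ 11 * i + 7 := by
  have h1 : ν Set.univ ≤
      2 ^ (densExp m i + 12 * m * h) * ν Set.univ * (2 ^ (n + 1) * (2 ^ (n * h))⁻¹) := by
    calc ν Set.univ = ν (dball z h) + ν (dball z h)ᶜ :=
          (measure_add_measure_compl (measurableSet_dball z h)).symm
      _ = ν (dball z h) := by rw [hν.supp, add_zero]
      _ ≤ 2 ^ (densExp m i + 12 * m * h) * ν Set.univ * sphereLaw (n + 1) (dball z h) := hd _
      _ ≤ _ := mul_le_mul_right (sphereLaw_dball_le z h) _
  have h2 : ν Set.univ * 2 ^ (n * h) ≤
      ν Set.univ * 2 ^ (densExp m i + 12 * m * h + (n + 1)) := by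
    calc ν Set.univ * 2 ^ (n * h) ≤ 2 ^ (densExp m i + 12 * m * h) * ν Set.univ *
          (2 ^ (n + 1) * (2 ^ (n * h))⁻¹) * 2 ^ (n * h) := mul_le_mul_left h1 _
      _ = 2 ^ (densExp m i + 12 * m * h) * ν Set.univ * 2 ^ (n + 1) *
          ((2 ^ (n * h))⁻¹ * 2 ^ (n * h)) := by ring
      _ = _ := by
          rw [ENNReal.inv_mul_cancel (by simp) (ENNReal.pow_ne_top ENNReal.ofNat_ne_top), mul_one,
            pow_add _ (densExp m i + 12 * m * h)]
          ring
  have h3 := (ENNReal.mul_le_mul_iff_right hν0 (measure_ne_top _ _)).1 h2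
  have h4 : n * h ≤ densExp m i + 12 * m * h + (n + 1) :=
    (Nat.pow_le_pow_iff_right (le_refl 2)).1 (by exact_mod_cast h3)
  simp only [densExp] at h4
  have h5 : (16 * m - 1) * h ≤ n * h := Nat.mul_le_mul_right _ (by omega)
  have h6 : 3 * m * h ≤ 32 * m * i + 19 * m := by
    have h7 : 3 * m * h + 12 * m * h ≤ (16 * m - 1) * h := by
      rw [← add_mul]
      exact Nat.mul_le_mul_right _ (by omega)
    omega
  nlinarith

/-- Induction over windows: starting from a spread piece, `R` windows later the best estimate is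
still far from the signal except with small probability. -/
lemma windows_le {n m J Rtot : ℕ} (hm : 16 ≤ m) (hn : 16 * m ≤ n + 1)
    (hn' : n + 1 < 16 * (m + 1)) (hcard : (Fintype.card S : ℝ≥0∞) ≤ 2 ^ (10 * m * m))
    (hJ : 11 * Rtot + 8 ≤ J) {g : ℕ → S → Vec (n + 1) → ℝ → S}
    (hg : ∀ t w, Measurable fun p : Vec (n + 1) × ℝ => g t w p.1 p.2)
    (o : S → Vec (n + 1)) :
    ∀ (R i t : ℕ) (w : S) (z : Vec (n + 1)) (h : ℕ) (ν : Measure (Vec (n + 1)))
      [IsFiniteMeasure ν], i + R = Rtot → IsSpread (12 * m) ν z h →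
      ν ≤ (2 ^ (densExp m i + 12 * m * h) * ν Set.univ) • sphereLaw (n + 1) →
      ∫⁻ s, val g (fun w => (dball (o w) J).indicator 1) (R * m) t w s ∂ν ≤
        ((R : ℝ≥0∞) * windowErr m + 2 * (2 ^ (12 * m))⁻¹) * ν Set.univ := by
  intro R
  induction R with
  | zero =>
    intro i t w z h ν _ hi hν hd
    have hval : ∀ s, val g (fun w => (dball (o w) J).indicator 1) (0 * m) t w s =
        (dball (o w) J).indicator 1 s := by
      intro s
      rw [zero_mul]
      simp [val, fold]
    rw [lintegral_congr hval, lintegral_indicator_one (measurableSet_dball _ _), Nat.cast_zero,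
      zero_mul, zero_add]
    by_cases hν0 : ν Set.univ = 0
    · simp [hν0, measure_mono_null (Set.subset_univ _) hν0]
    have hh := depth_le hm hn hn' ν hν0 hν hd
    obtain ⟨l, hl⟩ : ∃ l, J = h + l := ⟨J - h, by omega⟩
    have h1 := hν.small (o w) l
    rw [← hl] at h1
    calc ν (dball (o w) J) ≤ 2 * ν Set.univ * (2 ^ (12 * m * l))⁻¹ := by
          rw [← div_eq_mul_inv, ENNReal.le_div_iff_mul_le (Or.inl (by simp))
            (Or.inl (ENNReal.pow_ne_top ENNReal.ofNat_ne_top))]
          exact h1
      _ ≤ 2 * ν Set.univ * (2 ^ (12 * m))⁻¹ := by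
          refine mul_le_mul_right (ENNReal.inv_le_inv.2 (pow_le_pow_right₀ one_le_two ?_)) _
          exact Nat.le_mul_of_pos_right _ (by omega)
      _ = _ := by ring
  | succ R ih =>
    intro i t w z h ν _ hi hν hd
    set F : S → Vec (n + 1) → ℝ≥0∞ := fun w => (dball (o w) J).indicator 1 with hF
    have hFm : ∀ w, Measurable (F w) := fun w =>
      measurable_one.indicator (measurableSet_dball _ _)
    have hF1 : ∀ w s, F w s ≤ 1 := fun w s => Set.indicator_le_self _ _ s
    by_cases hp0 : ν Set.univ = 0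
    · simp [Measure.measure_univ_eq_zero.1 hp0]
    set W : (Fin m → Vec (n + 1)) × (Fin m → ℝ) → S := fun p => fold g m t w p.1 p.2 with hW'
    have hW : Measurable W := measurable_fold hg m t w
    obtain ⟨U, hUm, hUsum, hUc⟩ := window_split (by omega) hW hcard ν hν
    set f : S → Vec (n + 1) → ℝ≥0∞ := fun w' => val g F (R * m) (t + m) w' with hf
    set E : ℝ≥0∞ := (R : ℝ≥0∞) * windowErr m + 2 * (2 ^ (12 * m))⁻¹ with hE
    set P : S → ℝ≥0∞ := fun w' => ∫⁻ x, hit W w' x ∂ν with hP
    have hPt : ∀ w', P w' ≠ ⊤ := fun w' => ne_top_of_le_ne_top (measure_ne_top ν Set.univ)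
      ((lintegral_mono fun x => prob_le_one).trans (by simp))
    have hgood : ∀ w', ∫⁻ s in (U w')ᶜ, f w' s * hit W w' s ∂ν ≤
        (E + (2 ^ m)⁻¹) * P w' := by
      intro w'
      set μ : Measure (Vec (n + 1)) := (ν.restrict (U w')ᶜ).withDensity (hit W w') with hμdef
      have hμu : μ Set.univ ≤ P w' := by
        rw [hμdef, withDensity_apply _ MeasurableSet.univ, setLIntegral_univ]
        exact setLIntegral_le_lintegral _ _
      have hμz : μ (dball z h)ᶜ = 0 :=
        withDensity_absolutelyContinuous _ _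
          (nonpos_iff_eq_zero.1 ((Measure.restrict_apply_le _ _).trans hν.supp.le))
      have hμd : μ ≤ (2 ^ (densExp m i + 30 * m + 12 * m * h) * P w') • sphereLaw (n + 1) := by
        set c : ℝ≥0∞ := 2 ^ (30 * m) * P w' * (ν Set.univ)⁻¹ with hc
        have hb : ∀ s ∈ (U w')ᶜ, hit W w' s ≤ c := by
          intro s hs
          rw [hc, ← div_eq_mul_inv, ENNReal.le_div_iff_mul_le (Or.inl hp0)
            (Or.inl (measure_ne_top _ _))]
          exact hUc w' s hs
        calc μ ≤ (ν.restrict (U w')ᶜ).withDensity (fun _ => c) :=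
              withDensity_mono ((ae_restrict_iff' (hUm w').compl).2 (ae_of_all _ hb))
          _ = c • ν.restrict (U w')ᶜ := withDensity_const c
          _ ≤ c • ((2 ^ (densExp m i + 12 * m * h) * ν Set.univ) • sphereLaw (n + 1)) := by
              intro T
              simp only [Measure.smul_apply, smul_eq_mul]
              refine mul_le_mul_right ?_ _
              exact (Measure.restrict_apply_le _ _).trans (hd T)
          _ = _ := by
              rw [smul_smul]
              congr 1
              calc c * (2 ^ (densExp m i + 12 * m * h) * ν Set.univ)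
                  = 2 ^ (30 * m) * 2 ^ (densExp m i + 12 * m * h) * P w' *
                      ((ν Set.univ)⁻¹ * ν Set.univ) := by rw [hc]; ring
                _ = _ := by
                    rw [ENNReal.inv_mul_cancel hp0 (measure_ne_top _ _), mul_one, ← pow_add,
                      show 30 * m + (densExp m i + 12 * m * h) =
                        densExp m i + 30 * m + 12 * m * h by ring]
      have hdec := piece_decomp (n := n) (m := m) (b := 12 * m) (A := densExp m (i + 1))
        (A' := densExp m i + 30 * m) (by omega)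
        (by rw [densExp, densExp, mul_add]; omega) (f w') (fun s => val_le_one hF1 _ _ _ _)
        (Err := E) (fun z' h' ν' _ hν' hd' => ih (i + 1) (t + m) w' z' h' ν' (by omega) hν' hd')
        (hPt w') hμu hμz hμd
      calc ∫⁻ s in (U w')ᶜ, f w' s * hit W w' s ∂ν = ∫⁻ s, f w' s ∂μ := by
            rw [hμdef, lintegral_withDensity_eq_lintegral_mul _ (measurable_hit hW w')
              (measurable_val hFm hg _ _ _)]
            exact lintegral_congr fun s => mul_comm _ _
        _ ≤ E * μ Set.univ + P w' * (2 ^ m)⁻¹ := hdec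
        _ ≤ E * P w' + P w' * (2 ^ m)⁻¹ := by gcongr
        _ = _ := by ring
    have hsumP : ∑ w', P w' = ν Set.univ := by
      simp only [hP]
      rw [← lintegral_finsetSum _ fun w' _ => measurable_hit hW w', ← lintegral_one]
      refine lintegral_congr fun s => ?_
      have := sum_measure_fiber (rowsLaw (n + 1) m)
        (hW.comp (measurable_id.prodMk (measurable_lab.comp
          (measurable_id.prodMk (measurable_const (a := s)))))) Set.univ
      simpa [hit, Set.preimage, Function.comp_def] using this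
    rw [show (R + 1) * m = m + R * m by ring, lintegral_val_window hFm hg]
    calc ∑ w', ∫⁻ s, f w' s * hit W w' s ∂ν
        = ∑ w', (∫⁻ s in U w', f w' s * hit W w' s ∂ν +
            ∫⁻ s in (U w')ᶜ, f w' s * hit W w' s ∂ν) :=
          Finset.sum_congr rfl fun w' _ => (lintegral_add_compl _ (hUm w')).symm
      _ ≤ ∑ w', (∫⁻ s in U w', hit W w' s ∂ν + (E + (2 ^ m)⁻¹) * P w') := by
          refine Finset.sum_le_sum fun w' _ => add_le_add ?_ (hgood w')
          refine lintegral_mono fun s => ?_
          calc f w' s * hit W w' s ≤ 1 * hit W w' s :=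
                mul_le_mul_left (val_le_one hF1 _ _ _ _) _
            _ = _ := one_mul _
      _ ≤ ν Set.univ * ((2 ^ (8 * m))⁻¹ + (2 ^ (30 * m))⁻¹ + (2 / 3) ^ m) +
            (E + (2 ^ m)⁻¹) * ν Set.univ := by
          rw [Finset.sum_add_distrib, ← Finset.mul_sum, hsumP]
          gcongr
      _ = _ := by rw [hE, windowErr]; push_cast; ring

/-- Starting from the uniform law on the sphere. -/
lemma windows_start {n m J R : ℕ} (hm : 16 ≤ m) (hn : 16 * m ≤ n + 1)
    (hn' : n + 1 < 16 * (m + 1)) (hcard : (Fintype.card S : ℝ≥0∞) ≤ 2 ^ (10 * m * m))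
    (hJ : 11 * R + 8 ≤ J) {g : ℕ → S → Vec (n + 1) → ℝ → S}
    (hg : ∀ t w, Measurable fun p : Vec (n + 1) × ℝ => g t w p.1 p.2)
    (o : S → Vec (n + 1)) (w : S) :
    ∫⁻ s, val g (fun w => (dball (o w) J).indicator 1) (R * m) 0 w s ∂sphereLaw (n + 1) ≤
      (R : ℝ≥0∞) * windowErr m + 2 * (2 ^ (12 * m))⁻¹ + (2 ^ m)⁻¹ := by
  have hball : (dball (0 : Vec (n + 1)) 0) = Metric.closedBall 0 1 := by simp [dball]
  have hdec := piece_decomp (n := n) (m := m) (b := 12 * m) (A := densExp m 0) (A' := 0) (h := 0)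
    (by omega) (by rw [densExp]; omega)
    (fun s => val g (fun w => (dball (o w) J).indicator 1) (R * m) 0 w s)
    (fun s => val_le_one (fun w s => Set.indicator_le_self _ _ s) _ _ _ _)
    (Err := (R : ℝ≥0∞) * windowErr m + 2 * (2 ^ (12 * m))⁻¹)
    (fun z' h' ν' _ hν' hd' => windows_le hm hn hn' hcard hJ hg o R 0 0 w z' h' ν' (by omega)
      hν' hd')
    (z := 0) (μ := sphereLaw (n + 1)) (P := 1) (by simp) prob_le_one
    (by rw [hball]; exact sphereLaw_compl_closedBall) (by simp)
  simpa using hdec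

end Vale.Agent.P309
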