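import Mathlib

/-!
# The bounded-memory learner model for noiseless Gaussian linear regression
-/

namespace Vale.Agent.P309

open MeasureTheory ProbabilityTheory
open scoped RealInnerProductSpace ENNReal

/-- Euclidean space of dimension `d`. -/
abbrev Vec (d : ℕ) : Type := EuclideanSpace ℝ (Fin d)

/-- The uniform law on the unit sphere: the law of a standard Gaussian vector divided by its
norm. -/
noncomputable def sphereLaw (d : ℕ) : Measure (Vec d) :=
  (stdGaussian (Vec d)).map fun g => ‖g‖⁻¹ • g

/-- A learner with state set `Fin K` and random seed in `Ω`. At the index `t` (0-based) it maps its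
current state, the seed and the current pair `(x, y)` to the new state, decides whether to stop
after this pair, and finally outputs a unit vector computed from the number of pairs read, its
final state and the seed. -/
structure Learner (d K : ℕ) (Ω : Type*) [MeasurableSpace Ω] where
  init : Ω → Fin K
  init_meas : Measurable init
  step : ℕ → Fin K → Ω × Vec d × ℝ → Fin K
  step_meas : ∀ t w, Measurable (step t w)
  halt : ℕ → Fin K → Ω × Vec d × ℝ → Bool
  halt_meas : ∀ t w, Measurable (halt t w)
  out : ℕ → Fin K → Ω → Vec d
  out_meas : ∀ t w, Measurable (out t w)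
  out_unit : ∀ t w ω, ‖out t w ω‖ = 1

variable {d K : ℕ} {Ω : Type*} [MeasurableSpace Ω]

/-- Run the learner on `r` further rows `x`, labelled exactly by the signal `s`, starting at index
`t` in state `w`; the value is the number of pairs read and the final state. -/
noncomputable def Learner.run (A : Learner d K Ω) (ω : Ω) (s : Vec d) :
    (r : ℕ) → ℕ → Fin K → (Fin r → Vec d) → ℕ × Fin K
  | 0, t, w, _ => (t, w)
  | r + 1, t, w, x =>
    if A.halt t w (ω, x 0, ⟪x 0, s⟫) then (t + 1, A.step t w (ω, x 0, ⟪x 0, s⟫))
    else A.run ω s r (t + 1) (A.step t w (ω, x 0, ⟪x 0, s⟫)) (Fin.tail x)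

/-- The estimate after horizon `T`. -/
noncomputable def Learner.estimate (A : Learner d K Ω) (T : ℕ) (ω : Ω) (s : Vec d)
    (x : Fin T → Vec d) : Vec d :=
  A.out (A.run ω s T 0 (A.init ω) x).1 (A.run ω s T 0 (A.init ω) x).2 ω

/-- Success at accuracy `ε` within horizon `T`: with probability at least `2/3` over the seed
(of law `P`), a uniform signal on the unit sphere and `T` independent `N(0, I_d)` rows, the angle
between the estimate and the signal is at most `ε`. -/
def Learner.Succeeds (A : Learner d K Ω) (P : Measure Ω) (T : ℕ) (ε : ℝ) : Prop :=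
  2 / 3 ≤ (P.prod ((sphereLaw d).prod (Measure.pi fun _ : Fin T => stdGaussian (Vec d))))
    {p | Real.arccos ⟪A.estimate T p.1 p.2.1 p.2.2, p.2.1⟫ ≤ ε}

end Vale.Agent.P309
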