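import Vale.Agent.P309.Radon

/-!
# Spread measures: ball spreading controls neighbourhoods of low-dimensional subspaces
-/

namespace Vale.Agent.P309

open MeasureTheory ProbabilityTheory
open scoped RealInnerProductSpace ENNReal

variable {d : ℕ}

/-- The closed ball of radius `2⁻ʲ`. -/
def dball (z : Vec d) (j : ℕ) : Set (Vec d) := Metric.closedBall z ((1 / 2 : ℝ) ^ j)

lemma measurableSet_dball (z : Vec d) (j : ℕ) : MeasurableSet (dball z j) :=
  Metric.isClosed_closedBall.measurableSet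

/-- `ν` lives in the ball of radius `2⁻ʰ` around `z` and puts at most a `2·2^(-b l)` fraction of its
mass in each ball that is `2ˡ` times smaller. -/
structure IsSpread (b : ℕ) (ν : Measure (Vec d)) (z : Vec d) (h : ℕ) : Prop where
  supp : ν (dball z h)ᶜ = 0
  small : ∀ y l, ν (dball y (h + l)) * 2 ^ (b * l) ≤ 2 * ν Set.univ

/-- A ball-spread measure gives little mass to neighbourhoods of subspaces of low dimension. -/
lemma tube_le (ν : Measure (Vec d)) [IsFiniteMeasure ν] {b h : ℕ} {z : Vec d}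
    (hν : IsSpread b ν z h) (F : Submodule ℝ (Vec d)) {k : ℕ} (hk : Module.finrank ℝ F ≤ k)
    (l : ℕ) :
    ν {s | ‖s - F.starProjection s‖ ≤ (1 / 2 : ℝ) ^ (h + (l + 1))} * 2 ^ (b * l) ≤
      2 * 2 ^ (k * (l + 2)) * ν Set.univ := by
  set r : ℝ := (1 / 2 : ℝ) ^ (h + (l + 1)) with hr
  set R : ℝ := (1 / 2 : ℝ) ^ h with hR
  have hr0 : 0 < r := by positivity
  have hR0 : 0 < R := by positivity
  set T : Set (Vec d) := {s | ‖s - F.starProjection s‖ ≤ r} with hT
  have hTm : MeasurableSet T := measurableSet_le (by fun_prop) measurable_const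
  set T' := T ∩ dball z h with hT'
  have hT'm : MeasurableSet T' := hTm.inter (measurableSet_dball _ _)
  have hTT : ν T ≤ ν T' := by
    calc ν T ≤ ν (T' ∪ (dball z h)ᶜ) := measure_mono fun s hs => by
          by_cases h' : s ∈ dball z h
          · exact Or.inl ⟨hs, h'⟩
          · exact Or.inr h'
      _ ≤ ν T' + ν (dball z h)ᶜ := measure_union_le _ _
      _ = ν T' := by rw [hν.supp, add_zero]
  set big : Set F := Metric.closedBall (F.orthogonalProjection z) (2 * R) with hbig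
  set P : Set (F × Vec d) := {p | p.1 ∈ big ∧ ‖p.2 - (p.1 : Vec d)‖ ≤ 2 * r} with hP
  have hPm : MeasurableSet P :=
    (measurable_fst Metric.isClosed_closedBall.measurableSet).inter
      (measurableSet_le (f := fun p : F × Vec d => ‖p.2 - (p.1 : Vec d)‖) (by fun_prop)
        measurable_const)
  set V : ℝ≥0∞ := volume (Metric.closedBall (0 : F) 1) with hV
  have hV0 : V ≠ 0 := (Metric.measure_closedBall_pos volume (0 : F) one_pos).ne'
  have hVt : V ≠ ⊤ := measure_closedBall_lt_top.ne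
  set f := Module.finrank ℝ F with hf
  have hswap : ∫⁻ y : F, ν (Prod.mk y ⁻¹' P) ∂volume =
      ∫⁻ s, volume ((fun y : F => (y, s)) ⁻¹' P) ∂ν :=
    (Measure.prod_apply hPm).symm.trans (Measure.prod_apply_symm hPm)
  have hlow : ν T' * (ENNReal.ofReal (r ^ f) * V) ≤
      ∫⁻ s, volume ((fun y : F => (y, s)) ⁻¹' P) ∂ν := by
    rw [mul_comm, ← lintegral_indicator_const hT'm]
    refine lintegral_mono fun s => ?_
    by_cases hs : s ∈ T'
    · rw [Set.indicator_of_mem hs]
      refine le_of_eq_of_le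
        (Measure.addHaar_closedBall' volume (F.orthogonalProjection s) hr0.le).symm ?_
      refine measure_mono fun y hy => ?_
      rw [Metric.mem_closedBall, dist_eq_norm] at hy
      have hcoe : ‖(y : Vec d) - F.starProjection s‖ ≤ r := by
        rw [Submodule.starProjection_apply]
        exact hy
      refine ⟨?_, ?_⟩
      · rw [hbig, Metric.mem_closedBall, dist_eq_norm]
        have h1 : ‖(F.orthogonalProjection s - F.orthogonalProjection z : F)‖ ≤ R := by
          rw [← map_sub]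
          exact (Submodule.norm_orthogonalProjection_apply_le _ _).trans
            (by simpa [dball, hR, dist_eq_norm] using hs.2)
        have hrR : r ≤ R := pow_le_pow_of_le_one (by norm_num) (by norm_num) (Nat.le_add_right _ _)
        calc ‖y - F.orthogonalProjection z‖
            ≤ ‖y - F.orthogonalProjection s‖ +
              ‖F.orthogonalProjection s - F.orthogonalProjection z‖ :=
              norm_sub_le_norm_sub_add_norm_sub _ _ _
          _ ≤ _ := by linarith
      · calc ‖s - (y : Vec d)‖ ≤ ‖s - F.starProjection s‖ + ‖F.starProjection s - (y : Vec d)‖ :=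
              norm_sub_le_norm_sub_add_norm_sub _ _ _
          _ ≤ r + r := add_le_add hs.1 (by rwa [norm_sub_rev])
          _ = 2 * r := by ring
    · rw [Set.indicator_of_notMem hs]; exact zero_le
  have hup : ∫⁻ y : F, ν (Prod.mk y ⁻¹' P) ∂volume ≤
      2 * ν Set.univ / 2 ^ (b * l) * (ENNReal.ofReal ((2 * R) ^ f) * V) := by
    rw [← Measure.addHaar_closedBall' volume (F.orthogonalProjection z) (by positivity),
      ← hbig, ← lintegral_indicator_const Metric.isClosed_closedBall.measurableSet]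
    refine lintegral_mono fun y => ?_
    by_cases hy : y ∈ big
    · rw [Set.indicator_of_mem hy, ENNReal.le_div_iff_mul_le (Or.inl (by simp))
        (Or.inl (ENNReal.pow_ne_top ENNReal.ofNat_ne_top))]
      refine le_trans ?_ (hν.small (y : Vec d) l)
      refine mul_le_mul_left (measure_mono fun s hs => ?_) _
      rw [dball, Metric.mem_closedBall, dist_eq_norm]
      calc ‖s - (y : Vec d)‖ ≤ 2 * r := hs.2
        _ = _ := by rw [hr, ← add_assoc, pow_succ]; ring
    · rw [Set.indicator_of_notMem hy]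
      exact (measure_mono_null (fun s hs => hy hs.1) measure_empty).le
  have hmain : ν T' * (ENNReal.ofReal (r ^ f) * V) ≤
      2 * ν Set.univ / 2 ^ (b * l) * (ENNReal.ofReal ((2 * R) ^ f) * V) :=
    hlow.trans (hswap.symm.le.trans hup)
  have hratio : (2 * R) ^ f = (2 : ℝ) ^ (f * (l + 2)) * r ^ f := by
    rw [mul_comm f, pow_mul, ← mul_pow]
    congr 1
    rw [hr, hR, show l + 2 = (l + 1) + 1 by omega, pow_add _ h, pow_succ _ (l + 1), one_div]
    simp only [inv_pow]
    field_simp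
  rw [hratio, ENNReal.ofReal_mul (by positivity), ENNReal.ofReal_pow zero_le_two,
    ENNReal.ofReal_ofNat, mul_assoc ((2 : ℝ≥0∞) ^ (f * (l + 2))), ← mul_assoc _ ((2 : ℝ≥0∞) ^ _)]
    at hmain
  have hne0 : ENNReal.ofReal (r ^ f) * V ≠ 0 := mul_ne_zero (by simp [hr0]) hV0
  have hnet : ENNReal.ofReal (r ^ f) * V ≠ ⊤ := ENNReal.mul_ne_top ENNReal.ofReal_ne_top hVt
  have h2 : ν T' ≤ 2 * ν Set.univ / 2 ^ (b * l) * 2 ^ (f * (l + 2)) :=
    (ENNReal.mul_le_mul_iff_left hne0 hnet).1 hmain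
  calc ν T * 2 ^ (b * l) ≤ 2 * ν Set.univ / 2 ^ (b * l) * 2 ^ (f * (l + 2)) * 2 ^ (b * l) :=
        mul_le_mul_left (hTT.trans h2) _
    _ = 2 * ν Set.univ * 2 ^ (f * (l + 2)) := by
        rw [mul_right_comm, ENNReal.div_mul_cancel (by simp)
          (ENNReal.pow_ne_top ENNReal.ofNat_ne_top)]
    _ ≤ 2 * ν Set.univ * 2 ^ (k * (l + 2)) := by gcongr; norm_num
    _ = _ := by ring

lemma two_inv_pow_eq (j : ℕ) : ENNReal.ofReal ((1 / 2 : ℝ) ^ j) = (2 ^ j)⁻¹ := by
  rw [ENNReal.ofReal_pow (by norm_num), one_div, ENNReal.ofReal_inv_of_pos two_pos,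
    ENNReal.ofReal_ofNat, ENNReal.inv_pow]

/-- Layer-cake bound for the inverse gap. -/
lemma inv_gap_pow_le (m h : ℕ) {g : ℝ} (hg : 0 ≤ g) :
    (ENNReal.ofReal g)⁻¹ ^ m ≤ 2 ^ (m * h) + ∑' l : ℕ,
      if g ≤ (1 / 2 : ℝ) ^ (h + l) then (2 : ℝ≥0∞) ^ (m * (h + l + 1)) else 0 := by
  rcases hg.eq_or_lt with hg0 | hg0
  · subst hg0
    have : (∑' l : ℕ, if (0 : ℝ) ≤ (1 / 2 : ℝ) ^ (h + l) then (2 : ℝ≥0∞) ^ (m * (h + l + 1))
        else 0) = ⊤ := by
      refine eq_top_iff.2 ?_
      rw [← ENNReal.tsum_const_eq_top_of_ne_zero (α := ℕ) (one_ne_zero (α := ℝ≥0∞))]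
      refine ENNReal.tsum_le_tsum fun l => ?_
      rw [if_pos (by positivity)]
      exact one_le_pow₀ one_le_two
    rw [this, add_top]
    exact le_top
  rcases le_or_gt ((1 / 2 : ℝ) ^ h) g with hgh | hgh
  · refine le_add_right ?_
    rw [pow_mul', ← inv_inv ((2 : ℝ≥0∞) ^ h), ← two_inv_pow_eq]
    exact pow_le_pow_left₀ zero_le (ENNReal.inv_le_inv.2 (ENNReal.ofReal_le_ofReal hgh)) m
  · obtain ⟨n, hn⟩ : ∃ n : ℕ, (1 / 2 : ℝ) ^ (h + n) < g := by
      obtain ⟨n, hn⟩ := exists_pow_lt_of_lt_one hg0 (y := (1 / 2 : ℝ)) (by norm_num)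
      exact ⟨n, (pow_le_pow_of_le_one (by norm_num) (by norm_num) (Nat.le_add_left _ _)).trans_lt hn⟩
    classical
    have hex : ∃ n : ℕ, (1 / 2 : ℝ) ^ (h + n) < g := ⟨n, hn⟩
    set n0 := Nat.find hex with hn0
    have h1 : (1 / 2 : ℝ) ^ (h + n0) < g := Nat.find_spec hex
    obtain ⟨l, hl⟩ : ∃ l, n0 = l + 1 := by
      refine Nat.exists_eq_succ_of_ne_zero fun h0 => ?_
      rw [h0, add_zero] at h1
      linarith
    have h2 : g ≤ (1 / 2 : ℝ) ^ (h + l) :=
      not_lt.1 (Nat.find_min hex (by omega))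
    refine le_add_left (le_trans ?_ (ENNReal.le_tsum l))
    rw [if_pos h2, pow_mul', ← inv_inv ((2 : ℝ≥0∞) ^ (h + l + 1)), ← two_inv_pow_eq]
    refine pow_le_pow_left₀ zero_le (ENNReal.inv_le_inv.2 (ENNReal.ofReal_le_ofReal ?_)) m
    rw [hl, ← add_assoc] at h1
    exact h1.le

lemma two_pow_inv_mul {a c : ℕ} (x : ℝ≥0∞) (hca : c ≤ a) :
    x * 2 ^ c * (2 ^ a)⁻¹ = x * (2 ^ (a - c))⁻¹ := by
  conv_lhs => rw [← Nat.add_sub_cancel' hca, pow_add,
    ENNReal.mul_inv (Or.inl (by simp)) (Or.inl (ENNReal.pow_ne_top ENNReal.ofNat_ne_top))]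
  rw [mul_assoc, ← mul_assoc ((2 : ℝ≥0∞) ^ c), ENNReal.mul_inv_cancel (by simp)
    (ENNReal.pow_ne_top ENNReal.ofNat_ne_top), one_mul]

/-- The inverse-gap integral of a small part of a spread measure. -/
lemma lintegral_inv_gap_le {m h : ℕ} (hm : 1 ≤ m) {z : Vec d} (ν : Measure (Vec d))
    [IsFiniteMeasure ν] (hν : IsSpread (12 * m) ν z h) {U : Set (Vec d)}
    (hUp : ν U * 2 ^ (30 * m) ≤ ν Set.univ) {j : ℕ} (hj : j ≤ m)
    (v : Fin j → Vec d) :
    ∫⁻ s in U, (ENNReal.ofReal (gap v s))⁻¹ ^ m ∂ν ≤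
      2 ^ (m * h) * ν Set.univ * (2 ^ (22 * m))⁻¹ := by
  set F := Submodule.span ℝ (Set.range v) with hF
  have hfr : Module.finrank ℝ F ≤ m :=
    (finrank_range_le_card v).trans (by simpa using hj)
  set p := ν Set.univ with hp
  set G : ℝ≥0∞ := 2 ^ (m * h) with hG
  have hTm : ∀ l : ℕ, MeasurableSet {s | gap v s ≤ (1 / 2 : ℝ) ^ (h + l)} :=
    fun l => measurableSet_le (measurable_gap v) measurable_const
  have hU : ν U ≤ p * (2 ^ (30 * m))⁻¹ := by
    rw [← div_eq_mul_inv, ENNReal.le_div_iff_mul_le (Or.inl (by simp))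
      (Or.inl (ENNReal.pow_ne_top ENNReal.ofNat_ne_top))]
    exact hUp
  have hstep : ∫⁻ s in U, (ENNReal.ofReal (gap v s))⁻¹ ^ m ∂ν ≤ G * ν U +
      ∑' l : ℕ, (2 : ℝ≥0∞) ^ (m * (h + l + 1)) *
        ν.restrict U {s | gap v s ≤ (1 / 2 : ℝ) ^ (h + l)} := by
    refine (lintegral_mono fun s => inv_gap_pow_le m h (norm_nonneg _)).trans (le_of_eq ?_)
    have hfm : ∀ l : ℕ, Measurable fun s => if gap v s ≤ (1 / 2 : ℝ) ^ (h + l)
        then (2 : ℝ≥0∞) ^ (m * (h + l + 1)) else 0 :=
      fun l => Measurable.ite (hTm l) measurable_const measurable_const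
    rw [lintegral_add_left measurable_const, setLIntegral_const]
    refine congrArg _ ((lintegral_tsum fun l => (hfm l).aemeasurable).trans
      (tsum_congr fun l => ?_))
    rw [← lintegral_indicator_const (hTm l)]
    refine lintegral_congr fun s => ?_
    simp [Set.indicator_apply, gap]
  have hhead : ∀ l ∈ Finset.range 4, (2 : ℝ≥0∞) ^ (m * (h + l + 1)) *
      ν.restrict U {s | gap v s ≤ (1 / 2 : ℝ) ^ (h + l)} ≤ G * p * (2 ^ (26 * m))⁻¹ := by
    intro l hl
    have hl4 : l < 4 := Finset.mem_range.1 hl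
    calc _ ≤ (2 : ℝ≥0∞) ^ (m * (h + l + 1)) * (p * (2 ^ (30 * m))⁻¹) := by
          gcongr
          exact ((measure_mono (Set.subset_univ _)).trans_eq
            (Measure.restrict_apply_univ U)).trans hU
      _ ≤ (2 : ℝ≥0∞) ^ (m * h + 4 * m) * (p * (2 ^ (30 * m))⁻¹) := by
          gcongr
          · norm_num
          · nlinarith
      _ = G * p * 2 ^ (4 * m) * (2 ^ (30 * m))⁻¹ := by rw [pow_add, hG]; ring
      _ = _ := by rw [two_pow_inv_mul _ (by omega), show 30 * m - 4 * m = 26 * m by omega]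
  have htail : ∀ i : ℕ, (2 : ℝ≥0∞) ^ (m * (h + (i + 4) + 1)) *
      ν.restrict U {s | gap v s ≤ (1 / 2 : ℝ) ^ (h + (i + 4))} ≤
      G * p * (2 ^ (26 * m - 1))⁻¹ * 2⁻¹ ^ i := by
    intro i
    have h1 := tube_le ν hν F hfr (i + 3)
    calc _ ≤ (2 : ℝ≥0∞) ^ (m * (h + (i + 4) + 1)) *
          (2 * 2 ^ (m * (i + 3 + 2)) * p * (2 ^ (12 * m * (i + 3)))⁻¹) := by
          gcongr
          refine (Measure.restrict_apply_le _ _).trans ?_
          rw [← div_eq_mul_inv, ENNReal.le_div_iff_mul_le (Or.inl (by simp))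
            (Or.inl (ENNReal.pow_ne_top ENNReal.ofNat_ne_top))]
          exact h1
      _ = G * p * 2 ^ (2 * m * i + 10 * m + 1) * (2 ^ (12 * m * (i + 3)))⁻¹ := by
          rw [hG, show m * (h + (i + 4) + 1) = m * h + (m * i + 5 * m) by ring,
            show 2 * m * i + 10 * m + 1 = (m * i + 5 * m) + m * (i + 3 + 2) + 1 by ring]
          simp only [pow_add, pow_one]
          ring
      _ = G * p * (2 ^ (26 * m - 1 + 10 * m * i))⁻¹ := by
          rw [two_pow_inv_mul _ (by nlinarith)]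
          congr 3
          have e1 : 12 * m * (i + 3) = 12 * (m * i) + 36 * m := by ring
          have e2 : 2 * m * i = 2 * (m * i) := by ring
          have e3 : 10 * m * i = 10 * (m * i) := by ring
          omega
      _ ≤ G * p * (2 ^ (26 * m - 1 + i))⁻¹ := by
          gcongr
          · norm_num
          · nlinarith
      _ = _ := by
          rw [pow_add, ENNReal.mul_inv (Or.inl (by simp))
            (Or.inl (ENNReal.pow_ne_top ENNReal.ofNat_ne_top)), ENNReal.inv_pow, ENNReal.inv_pow]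
          ring
  set Z : ℝ≥0∞ := G * p * (2 ^ (26 * m - 1))⁻¹ with hZ
  have hZle : G * p * (2 ^ (26 * m))⁻¹ ≤ Z := by
    rw [hZ]; gcongr
    · norm_num
    · omega
  have hGU : G * ν U ≤ Z := by
    calc G * ν U ≤ G * (p * (2 ^ (30 * m))⁻¹) := mul_le_mul_right hU _
      _ ≤ Z := by
          rw [hZ, ← mul_assoc]; gcongr
          · norm_num
          · omega
  refine hstep.trans ?_
  rw [← ENNReal.summable.sum_add_tsum_nat_add' (k := 4)]
  calc _ ≤ Z + (4 * Z + Z * 2) := by
        refine add_le_add hGU (add_le_add ?_ ?_)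
        · refine (Finset.sum_le_card_nsmul _ _ Z fun l hl => (hhead l hl).trans hZle).trans
            (le_of_eq ?_)
          simp
        · refine (ENNReal.tsum_le_tsum htail).trans (le_of_eq ?_)
          rw [ENNReal.tsum_mul_left, ENNReal.tsum_geometric, ENNReal.one_sub_inv_two, inv_inv]
    _ = 7 * Z := by ring
    _ ≤ 2 ^ 3 * Z := by gcongr; norm_num
    _ = G * p * 2 ^ 3 * (2 ^ (26 * m - 1))⁻¹ := by rw [hZ]; ring
    _ ≤ _ := by
        rw [two_pow_inv_mul _ (by omega)]
        gcongr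
        · norm_num
        · omega

end Vale.Agent.P309
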