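import Vale.Agent.P309.Sphere
import Vale.Agent.P309.Spread

/-!
# Splitting a measure of bounded density into spread pieces
-/

namespace Vale.Agent.P309

open MeasureTheory ProbabilityTheory
open scoped RealInnerProductSpace ENNReal

lemma sphereLaw_dball_le {n : ℕ} (z : Vec (n + 1)) (j : ℕ) :
    sphereLaw (n + 1) (dball z j) ≤ 2 ^ (n + 1) * (2 ^ (n * j))⁻¹ := by
  refine (sphereLaw_closedBall_le n z (by positivity)).trans (le_of_eq ?_)
  rw [← pow_mul, mul_comm j n, ENNReal.ofReal_mul (by positivity), ENNReal.ofReal_pow zero_le_two,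
    ENNReal.ofReal_ofNat, two_inv_pow_eq]

/-- A property that holds for spread pieces holds, up to a small loss, for every measure of bounded
density. -/
lemma piece_decomp {n m b A A' h : ℕ} (hb : b < n) (hA : A' + m + 1 ≤ A)
    (f : Vec (n + 1) → ℝ≥0∞) (hf : ∀ s, f s ≤ 1) {Err : ℝ≥0∞}
    (H : ∀ (z : Vec (n + 1)) (h : ℕ) (ν : Measure (Vec (n + 1))) [IsFiniteMeasure ν],
      IsSpread b ν z h → ν ≤ (2 ^ (A + b * h) * ν Set.univ) • sphereLaw (n + 1) →
      ∫⁻ s, f s ∂ν ≤ Err * ν Set.univ)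
    {z : Vec (n + 1)} {μ : Measure (Vec (n + 1))} {P : ℝ≥0∞} (hP : P ≠ ⊤)
    (hμP : μ Set.univ ≤ P) (hμz : μ (dball z h)ᶜ = 0)
    (hμ : μ ≤ (2 ^ (A' + b * h) * P) • sphereLaw (n + 1)) :
    ∫⁻ s, f s ∂μ ≤ Err * μ Set.univ + P * (2 ^ m)⁻¹ := by
  by_cases hP0 : P = 0
  · subst hP0
    have : μ = 0 := Measure.measure_univ_eq_zero.1 (nonpos_iff_eq_zero.1 hμP)
    simp [this]
  set η : ℝ≥0∞ := P * (2 ^ m)⁻¹ with hη
  have hη0 : η ≠ 0 := mul_ne_zero hP0 (ENNReal.inv_ne_zero.2 (ENNReal.pow_ne_top ENNReal.ofNat_ne_top))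
  have hηt : η ≠ ⊤ := ENNReal.mul_ne_top hP (ENNReal.inv_ne_top.2 (by simp))
  have hPη : P = η * 2 ^ m := by
    rw [hη, mul_assoc, ENNReal.inv_mul_cancel (by simp) (ENNReal.pow_ne_top ENNReal.ofNat_ne_top),
      mul_one]
  set J := A' + b * h + n + m + 2 with hJ
  set πmin : ℝ≥0∞ := η * (2 ^ (b * J + 1))⁻¹ with hπmin
  have hπmin0 : πmin ≠ 0 :=
    mul_ne_zero hη0 (ENNReal.inv_ne_zero.2 (ENNReal.pow_ne_top ENNReal.ofNat_ne_top))
  have hπmint : πmin ≠ ⊤ := ENNReal.mul_ne_top hηt (ENNReal.inv_ne_top.2 (by simp))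
  suffices key : ∀ (N : ℕ) (μ' : Measure (Vec (n + 1))), μ' ≤ μ →
      μ' Set.univ ≤ η + N * πmin → ∫⁻ s, f s ∂μ' ≤ Err * μ' Set.univ + η by
    obtain ⟨N, hN⟩ := ENNReal.exists_nat_mul_gt hπmin0 hP
    exact key N μ le_rfl (hμP.trans (le_add_left hN.le))
  intro N
  induction N with
  | zero =>
    intro μ' _ hmass
    refine le_add_left ((lintegral_mono hf).trans ?_)
    simpa using hmass
  | succ N ih =>
    intro μ' hμ' hmass
    haveI : IsFiniteMeasure μ' :=
      ⟨((hμ' Set.univ).trans hμP).trans_lt hP.lt_top⟩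
    by_cases hsmall : μ' Set.univ ≤ η
    · refine le_add_left ((lintegral_mono hf).trans ?_)
      simpa using hsmall
    rw [not_le] at hsmall
    set B : ℝ≥0∞ := 2 ^ (A' + b * h) * P * 2 ^ (n + 1) with hB
    have hBt : B ≠ ⊤ := ENNReal.mul_ne_top (ENNReal.mul_ne_top
      (ENNReal.pow_ne_top ENNReal.ofNat_ne_top) hP) (ENNReal.pow_ne_top ENNReal.ofNat_ne_top)
    set S : ℝ≥0∞ := ⨆ p : Vec (n + 1) × ℕ, μ' (dball p.1 (h + p.2)) * 2 ^ (b * p.2) with hS
    have hterm : ∀ y j, μ' (dball y (h + j)) * (2 : ℝ≥0∞) ^ (n * j) ≤ B := by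
      intro y j
      calc μ' (dball y (h + j)) * (2 : ℝ≥0∞) ^ (n * j)
          ≤ 2 ^ (A' + b * h) * P * (2 ^ (n + 1) * (2 ^ (n * (h + j)))⁻¹) * 2 ^ (n * j) := by
            refine mul_le_mul_left (((hμ'.trans hμ) _).trans ?_) _
            rw [Measure.smul_apply, smul_eq_mul]
            exact mul_le_mul_right (sphereLaw_dball_le y (h + j)) _
        _ = B * ((2 : ℝ≥0∞) ^ (n * j) * (2 ^ (n * (h + j)))⁻¹) := by rw [hB]; ring
        _ ≤ B * 1 := by
            refine mul_le_mul_right ?_ _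
            rw [← div_eq_mul_inv]
            refine ENNReal.div_le_of_le_mul ?_
            rw [one_mul]
            exact pow_le_pow_right₀ one_le_two (Nat.mul_le_mul_left _ (Nat.le_add_left _ _))
        _ = B := mul_one B
    have hSB : S ≤ B := iSup_le fun p => le_trans (mul_le_mul_right
      (pow_le_pow_right₀ one_le_two (Nat.mul_le_mul_right _ hb.le)) _) (hterm p.1 p.2)
    have huniv : μ' Set.univ ≤ S := by
      have h0 : μ' (dball z h)ᶜ = 0 := nonpos_iff_eq_zero.1 ((hμ' _).trans hμz.le)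
      rw [← measure_add_measure_compl (measurableSet_dball z h), h0, add_zero]
      exact le_trans (by simp) (le_iSup (fun p : Vec (n + 1) × ℕ =>
        μ' (dball p.1 (h + p.2)) * 2 ^ (b * p.2)) (z, 0))
    have hS0 : S ≠ 0 := fun h0 => by simp [h0] at huniv; simp [huniv] at hsmall
    have hSlt : S / 2 < S := ENNReal.half_lt_self hS0 (ne_top_of_le_ne_top hBt hSB)
    obtain ⟨⟨y, j⟩, hyj⟩ := lt_iSup_iff.1 (hS ▸ hSlt)
    set π : ℝ≥0∞ := μ' (dball y (h + j)) with hπ
    have hS2 : S ≤ 2 * (π * 2 ^ (b * j)) := by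
      rw [mul_comm]
      exact (ENNReal.div_le_iff_le_mul (Or.inl (by simp)) (Or.inl (by simp))).1 hyj.le
    have hη2 : η ≤ 2 * (π * 2 ^ (b * j)) := hsmall.le.trans (huniv.trans hS2)
    have hjJ : j ≤ J := by
      have h1 : η * (2 : ℝ≥0∞) ^ j ≤ η * 2 ^ J := by
        calc η * (2 : ℝ≥0∞) ^ j ≤ 2 * (π * 2 ^ (b * j)) * 2 ^ j := mul_le_mul_left hη2 _
          _ = 2 * (π * (2 ^ (b * j + j))) := by rw [pow_add]; ring
          _ ≤ 2 * (π * (2 ^ (n * j))) := by
              gcongr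
              · norm_num
              · nlinarith
          _ ≤ 2 * B := mul_le_mul_right (hterm y j) _
          _ = η * 2 ^ J := by rw [hB, hPη, hJ]; simp only [pow_add, pow_one]; ring
      have h2 := (ENNReal.mul_le_mul_iff_right hη0 hηt).1 h1
      exact (Nat.pow_le_pow_iff_right (le_refl 2)).1 (by exact_mod_cast h2)
    have hπle : πmin ≤ π := by
      rw [hπmin, ← div_eq_mul_inv]
      refine ENNReal.div_le_of_le_mul (hη2.trans ?_)
      calc 2 * (π * 2 ^ (b * j)) ≤ 2 * (π * 2 ^ (b * J)) := by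
            gcongr
            norm_num
        _ = π * 2 ^ (b * J + 1) := by rw [pow_succ]; ring
    set ν := μ'.restrict (dball y (h + j)) with hν
    have hνu : ν Set.univ = π := Measure.restrict_apply_univ _
    have hspread : IsSpread b ν y (h + j) := by
      refine ⟨?_, fun y' l => ?_⟩
      · rw [hν, Measure.restrict_apply (measurableSet_dball _ _).compl, Set.compl_inter_self,
          measure_empty]
      · rw [hνu]
        have h1 : ν (dball y' (h + j + l)) * 2 ^ (b * l) * 2 ^ (b * j) ≤ 2 * π * 2 ^ (b * j) := by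
          calc ν (dball y' (h + j + l)) * 2 ^ (b * l) * 2 ^ (b * j)
              ≤ μ' (dball y' (h + (j + l))) * 2 ^ (b * (j + l)) := by
                rw [mul_assoc, ← pow_add, add_assoc h, show b * l + b * j = b * (j + l) by ring]
                exact mul_le_mul_left (Measure.restrict_apply_le _ _) _
            _ ≤ S := le_iSup (fun p : Vec (n + 1) × ℕ =>
                μ' (dball p.1 (h + p.2)) * 2 ^ (b * p.2)) (y', j + l)
            _ ≤ _ := hS2.trans_eq (mul_assoc _ _ _).symm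
        exact (ENNReal.mul_le_mul_iff_left (by simp)
          (ENNReal.pow_ne_top ENNReal.ofNat_ne_top)).1 h1
    have hdens : ν ≤ (2 ^ (A + b * (h + j)) * ν Set.univ) • sphereLaw (n + 1) := by
      refine (Measure.restrict_le_self.trans (hμ'.trans hμ)).trans (fun T => ?_)
      simp only [Measure.smul_apply, smul_eq_mul, hνu]
      refine mul_le_mul_left ?_ _
      calc 2 ^ (A' + b * h) * P ≤ 2 ^ (A' + b * h) * (2 * (π * 2 ^ (b * j)) * 2 ^ m) := by
            rw [hPη]; gcongr
        _ = 2 ^ (A' + b * h + (b * j) + m + 1) * π := by simp only [pow_add, pow_one]; ring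
        _ ≤ _ := mul_le_mul_left (pow_le_pow_right₀ one_le_two (by rw [mul_add]; omega)) _
    have h1 := H y (h + j) ν hspread hdens
    have h2 := ih (μ'.restrict (dball y (h + j))ᶜ) (Measure.restrict_le_self.trans hμ') (by
      rw [Measure.restrict_apply_univ]
      refine (ENNReal.add_le_add_iff_left hπmint).1 ?_
      calc πmin + μ' (dball y (h + j))ᶜ ≤ π + μ' (dball y (h + j))ᶜ := add_le_add hπle le_rfl
        _ = μ' Set.univ := measure_add_measure_compl (measurableSet_dball _ _)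
        _ ≤ η + (N + 1 : ℕ) * πmin := hmass
        _ = _ := by push_cast; ring)
    calc ∫⁻ s, f s ∂μ' = ∫⁻ s, f s ∂ν + ∫⁻ s, f s ∂(μ'.restrict (dball y (h + j))ᶜ) :=
          (lintegral_add_compl f (measurableSet_dball _ _)).symm
      _ ≤ Err * π + (Err * μ' (dball y (h + j))ᶜ + η) := by
          refine add_le_add (hνu ▸ h1) ?_
          rwa [Measure.restrict_apply_univ] at h2
      _ = _ := by
          rw [← add_assoc, ← mul_add, measure_add_measure_compl (measurableSet_dball _ _)]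

end Vale.Agent.P309
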