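import Vale.Agent.P309.Gauss

/-!
# The multilinear bound for projections on a window of rows
-/

namespace Vale.Agent.P309

open MeasureTheory ProbabilityTheory Filter Topology
open scoped RealInnerProductSpace ENNReal NNReal

variable {d : ℕ}

/-- The law of a window of `m` rows. -/
noncomputable def rowsLaw (d m : ℕ) : Measure (Fin m → Vec d) :=
  Measure.pi fun _ => stdGaussian (Vec d)

instance rowsLaw_prob (d m : ℕ) : IsProbabilityMeasure (rowsLaw d m) := by
  unfold rowsLaw; infer_instance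

/-- The exact labels of a window. -/
noncomputable def lab {m : ℕ} (X : Fin m → Vec d) (s : Vec d) : Fin m → ℝ := fun i => ⟪X i, s⟫

lemma measurable_lab {m : ℕ} :
    Measurable fun p : (Fin m → Vec d) × Vec d => lab p.1 p.2 := by
  unfold lab; fun_prop

lemma lintegral_invGaps_le (ν : Measure (Vec d)) [IsFiniteMeasure ν] (m : ℕ) {I : ℝ≥0∞}
    (hI : I ≠ ⊤) : ∀ (k : ℕ),
    (∀ j ≤ k, ∀ v : Fin j → Vec d, ∫⁻ s, (ENNReal.ofReal (gap v s))⁻¹ ^ m ∂ν ≤ I) →
    ∫⁻ v, invGaps k v ^ m ∂(Measure.pi fun _ : Fin (k + 1) => ν) ≤ ν Set.univ * I ^ k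
  | 0, _ => by simp [invGaps, Measure.pi_univ]
  | k + 1, hb => by
    have ih := lintegral_invGaps_le ν m hI k fun j hj => hb j (Nat.le_succ_of_le hj)
    have e := (measurePreserving_piFinSuccAbove (fun _ : Fin (k + 1 + 1) => ν)
      (Fin.last (k + 1))).symm
    have e' := e.comp (Measure.measurePreserving_swap
      (μ := Measure.pi fun _ : Fin (k + 1) => ν) (ν := ν))
    have hemb : MeasurableEmbedding
        (⇑(MeasurableEquiv.piFinSuccAbove (fun _ : Fin (k + 1 + 1) => Vec d)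
          (Fin.last (k + 1))).symm ∘ Prod.swap) :=
      (MeasurableEquiv.piFinSuccAbove (fun _ : Fin (k + 1 + 1) => Vec d)
        (Fin.last (k + 1))).symm.measurableEmbedding.comp
        MeasurableEquiv.prodComm.measurableEmbedding
    rw [← e'.lintegral_comp_emb hemb]
    refine (lintegral_prod_le _).trans ?_
    have hval : ∀ (v : Fin (k + 1) → Vec d) (s : Vec d),
        invGaps (k + 1) ((⇑(MeasurableEquiv.piFinSuccAbove (fun _ : Fin (k + 1 + 1) => Vec d)
          (Fin.last (k + 1))).symm ∘ Prod.swap) (v, s)) ^ m =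
        invGaps k v ^ m * (ENNReal.ofReal (gap v s))⁻¹ ^ m := by
      intro v s
      simp [invGaps, MeasurableEquiv.piFinSuccAbove, Fin.insertNthEquiv, mul_pow]
    calc _ = ∫⁻ v, ∫⁻ s, invGaps k v ^ m * (ENNReal.ofReal (gap v s))⁻¹ ^ m ∂ν
          ∂(Measure.pi fun _ : Fin (k + 1) => ν) := by simp only [hval]
      _ ≤ ∫⁻ v, invGaps k v ^ m * I ∂(Measure.pi fun _ : Fin (k + 1) => ν) := by
          refine lintegral_mono fun v => ?_
          have hgm : Measurable fun s => (ENNReal.ofReal (gap v s))⁻¹ ^ m :=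
            ((measurable_gap v).ennreal_ofReal.inv).pow_const m
          rw [lintegral_const_mul _ hgm]
          exact mul_le_mul_right (hb (k + 1) le_rfl v) _
      _ = (∫⁻ v, invGaps k v ^ m ∂(Measure.pi fun _ : Fin (k + 1) => ν)) * I :=
          lintegral_mul_const' _ _ hI
      _ ≤ _ := (mul_le_mul_left ih _).trans_eq (by rw [pow_succ]; ring)

lemma le_add_pow_div {l : ℝ≥0∞} (hl0 : l ≠ 0) (hlt : l ≠ ⊤) (k : ℕ) (a : ℝ≥0∞) :
    a ≤ l + (l ^ k)⁻¹ * a ^ (k + 1) := by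
  rcases le_total a l with h | h
  · exact le_add_right h
  · refine le_add_left ?_
    calc a = a * ((l ^ k)⁻¹ * l ^ k) := by
          rw [ENNReal.inv_mul_cancel (pow_ne_zero _ hl0) (ENNReal.pow_ne_top hlt), mul_one]
      _ ≤ a * ((l ^ k)⁻¹ * a ^ k) :=
          mul_le_mul_right (mul_le_mul_right (pow_le_pow_left₀ zero_le h k) _) _
      _ = (l ^ k)⁻¹ * a ^ (k + 1) := by rw [pow_succ]; ring

/-- The mass of the projection of `ν` in the box of radius `h` around `y`, per unit volume. -/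
noncomputable def boxDens {m : ℕ} (ν : Measure (Vec d)) (h : ℝ) (X : Fin m → Vec d)
    (y : Fin m → ℝ) : ℝ≥0∞ :=
  (ENNReal.ofReal (2 * h) ^ m)⁻¹ * ν {s | lab X s ∈ Metric.ball y h}

lemma volume_ball_pi {m : ℕ} {h : ℝ} (hh : 0 < h) (y : Fin m → ℝ) :
    volume (Metric.ball y h) = ENNReal.ofReal (2 * h) ^ m := by
  rw [Real.volume_pi_ball _ hh, Fintype.card_fin, ENNReal.ofReal_pow (by linarith)]

lemma measurableSet_labBall {m : ℕ} (h : ℝ) :
    MeasurableSet {p : ((Fin m → Vec d) × (Fin m → ℝ)) × Vec d |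
      lab p.1.1 p.2 ∈ Metric.ball p.1.2 h} := by
  simp only [Metric.mem_ball]
  exact measurableSet_lt ((measurable_lab.comp
    (measurable_fst.fst.prodMk measurable_snd)).dist measurable_fst.snd) measurable_const

lemma measurable_boxDens {m : ℕ} (ν : Measure (Vec d)) [IsFiniteMeasure ν] (h : ℝ) :
    Measurable fun p : (Fin m → Vec d) × (Fin m → ℝ) => boxDens ν h p.1 p.2 := by
  unfold boxDens
  exact (measurable_measure_prodMk_left (measurableSet_labBall h)).const_mul _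

/-- Mass in an open set is at most the lower limit of the smoothed masses. -/
lemma open_mass_le_liminf {m : ℕ} (ν : Measure (Vec d)) [IsFiniteMeasure ν]
    (X : Fin m → Vec d) {O : Set (Fin m → ℝ)} (hO : IsOpen O) {h : ℕ → ℝ} (hpos : ∀ n, 0 < h n)
    (htend : Tendsto h atTop (𝓝 0)) :
    ν (lab X ⁻¹' O) ≤ liminf (fun n => ∫⁻ y in O, boxDens ν (h n) X y) atTop := by
  have hlabm : Measurable (lab X) := measurable_lab.comp (measurable_const.prodMk measurable_id)
  have hC0 : ∀ n, ENNReal.ofReal (2 * h n) ^ m ≠ 0 := fun n => pow_ne_zero _ (by simp [hpos n])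
  have hint : ∀ n, ∫⁻ y in O, boxDens ν (h n) X y = ∫⁻ s, (ENNReal.ofReal (2 * h n) ^ m)⁻¹ *
      volume (O ∩ Metric.ball (lab X s) (h n)) ∂ν := by
    intro n
    have hs : MeasurableSet {p : (Fin m → ℝ) × Vec d | p.1 ∈ O ∧
        lab X p.2 ∈ Metric.ball p.1 (h n)} :=
      (measurable_fst hO.measurableSet).inter
        (((measurable_const.prodMk measurable_fst).prodMk measurable_snd)
          (measurableSet_labBall (h n)))
    unfold boxDens
    rw [lintegral_const_mul' _ _ (ENNReal.inv_ne_top.2 (hC0 n)),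
      lintegral_const_mul' _ _ (ENNReal.inv_ne_top.2 (hC0 n))]
    congr 1
    calc ∫⁻ y in O, ν {s | lab X s ∈ Metric.ball y (h n)}
        = ∫⁻ y, ν (Prod.mk y ⁻¹' {p : (Fin m → ℝ) × Vec d | p.1 ∈ O ∧
            lab X p.2 ∈ Metric.ball p.1 (h n)}) := by
          rw [← lintegral_indicator hO.measurableSet]
          refine lintegral_congr fun y => ?_
          by_cases hy : y ∈ O <;> simp [hy]
      _ = ∫⁻ s, volume ((fun y => (y, s)) ⁻¹' {p : (Fin m → ℝ) × Vec d | p.1 ∈ O ∧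
            lab X p.2 ∈ Metric.ball p.1 (h n)}) ∂ν :=
          (Measure.prod_apply hs).symm.trans (Measure.prod_apply_symm hs)
      _ = _ := by
          refine lintegral_congr fun s => congrArg _ ?_
          ext y
          simp [Metric.mem_ball, dist_comm]
  simp_rw [hint]
  refine le_trans ?_ (lintegral_liminf_le fun n => ?_)
  · rw [← lintegral_indicator_one (hlabm hO.measurableSet)]
    refine lintegral_mono fun s => ?_
    by_cases hs : s ∈ lab X ⁻¹' O
    · rw [Set.indicator_of_mem hs]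
      refine le_liminf_of_le (by isBoundedDefault) ?_
      obtain ⟨δ, hδ, hδO⟩ := Metric.isOpen_iff.1 hO _ hs
      filter_upwards [htend.eventually (Iio_mem_nhds hδ)] with n hn
      rw [Set.inter_eq_right.2 ((Metric.ball_subset_ball (le_of_lt hn)).trans hδO),
        volume_ball_pi (hpos n),
        ENNReal.inv_mul_cancel (hC0 n) (ENNReal.pow_ne_top ENNReal.ofReal_ne_top)]
      rfl
    · rw [Set.indicator_of_notMem hs]; exact zero_le
  · have hs : MeasurableSet {p : Vec d × (Fin m → ℝ) | p.2 ∈ O ∧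
        lab X p.1 ∈ Metric.ball p.2 (h n)} :=
      (measurable_snd hO.measurableSet).inter
        (((measurable_const.prodMk measurable_snd).prodMk measurable_fst)
          (measurableSet_labBall (h n)))
    refine Measurable.const_mul ?_ _
    have heq : (fun s => volume (O ∩ Metric.ball (lab X s) (h n))) =
        fun s => (volume : Measure (Fin m → ℝ)) (Prod.mk s ⁻¹' {p : Vec d × (Fin m → ℝ) |
          p.2 ∈ O ∧ lab X p.1 ∈ Metric.ball p.2 (h n)}) := by
      funext s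
      refine congrArg _ ?_
      ext y
      simp [Metric.mem_ball, dist_comm]
    rw [heq]
    exact measurable_measure_prodMk_left hs

lemma pi_ball_inter_volume_le {m k : ℕ} {h : ℝ} (hh : 0 < h) (X : Fin m → Vec d)
    (v : Fin (k + 1) → Vec d) :
    volume {y : Fin m → ℝ | ∀ i, lab X (v i) ∈ Metric.ball y h} ≤
      {w : Fin (k + 1) → Vec d | ∀ j, ∀ i, |⟪X j, w i⟫ - ⟪X j, w 0⟫| ≤ 2 * h}.indicator
        (fun _ => ENNReal.ofReal (2 * h) ^ m) v := by
  by_cases hv : v ∈ {w : Fin (k + 1) → Vec d | ∀ j, ∀ i, |⟪X j, w i⟫ - ⟪X j, w 0⟫| ≤ 2 * h}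
  · rw [Set.indicator_of_mem hv, ← volume_ball_pi hh (lab X (v 0))]
    refine measure_mono fun y hy => ?_
    simpa [Metric.mem_ball, dist_comm] using hy 0
  · rw [Set.indicator_of_notMem hv, nonpos_iff_eq_zero]
    refine measure_mono_null (fun y hy => hv ?_) measure_empty
    intro j i
    have h1 : |⟪X j, v i⟫ - y j| < h := (dist_le_pi_dist (lab X (v i)) y j).trans_lt (hy i)
    have h2 : |⟪X j, v 0⟫ - y j| < h := (dist_le_pi_dist (lab X (v 0)) y j).trans_lt (hy 0)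
    have h4 := abs_sub_le ⟪X j, v i⟫ (y j) ⟪X j, v 0⟫
    rw [abs_sub_comm (y j)] at h4
    linarith

lemma measurableSet_diam {m k : ℕ} (h : ℝ) :
    MeasurableSet {p : (Fin m → Vec d) × (Fin (k + 1) → Vec d) |
      ∀ j, ∀ i, |⟪p.1 j, p.2 i⟫ - ⟪p.1 j, p.2 0⟫| ≤ 2 * h} := by
  simp only [Set.ofPred_forall]
  exact MeasurableSet.iInter fun j => MeasurableSet.iInter fun i =>
    measurableSet_le (f := fun p : (Fin m → Vec d) × (Fin (k + 1) → Vec d) =>
      |⟪p.1 j, p.2 i⟫ - ⟪p.1 j, p.2 0⟫|) (by fun_prop) measurable_const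

/-- The moment of order `k + 1` of the smoothed density, for one window of rows. -/
lemma moment_le_diam {m : ℕ} (ν : Measure (Vec d)) [IsFiniteMeasure ν] (k : ℕ) {h : ℝ}
    (hh : 0 < h) (X : Fin m → Vec d) :
    ∫⁻ y, boxDens ν h X y ^ (k + 1) ≤
      ((ENNReal.ofReal (2 * h) ^ m)⁻¹) ^ (k + 1) * ENNReal.ofReal (2 * h) ^ m *
        (Measure.pi fun _ : Fin (k + 1) => ν)
          {w | ∀ j, ∀ i, |⟪X j, w i⟫ - ⟪X j, w 0⟫| ≤ 2 * h} := by
  have hC0 : ENNReal.ofReal (2 * h) ^ m ≠ 0 := pow_ne_zero _ (by simp [hh])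
  have hW : MeasurableSet {p : (Fin m → ℝ) × (Fin (k + 1) → Vec d) |
      ∀ i, lab X (p.2 i) ∈ Metric.ball p.1 h} := by
    simp only [Set.ofPred_forall]
    refine MeasurableSet.iInter fun i => ?_
    exact ((measurable_const (a := X)).prodMk
      (measurable_fst (α := Fin m → ℝ) (β := Fin (k + 1) → Vec d))).prodMk
      ((measurable_pi_apply i).comp measurable_snd) (measurableSet_labBall h)
  have hpow : ∀ y, boxDens ν h X y ^ (k + 1) = ((ENNReal.ofReal (2 * h) ^ m)⁻¹) ^ (k + 1) *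
      (Measure.pi fun _ : Fin (k + 1) => ν) (Prod.mk y ⁻¹'
        {p : (Fin m → ℝ) × (Fin (k + 1) → Vec d) |
          ∀ i, lab X (p.2 i) ∈ Metric.ball p.1 h}) := by
    intro y
    rw [show Prod.mk y ⁻¹' {p : (Fin m → ℝ) × (Fin (k + 1) → Vec d) |
        ∀ i, lab X (p.2 i) ∈ Metric.ball p.1 h} =
      Set.univ.pi fun _ : Fin (k + 1) => {s | lab X s ∈ Metric.ball y h} by ext v; simp]
    rw [Measure.pi_pi]
    simp [boxDens, mul_pow]
  simp_rw [hpow]
  rw [lintegral_const_mul' _ _ (ENNReal.pow_ne_top (ENNReal.inv_ne_top.2 hC0)), mul_assoc]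
  refine mul_le_mul_right ?_ _
  rw [← Measure.prod_apply hW, Measure.prod_apply_symm hW]
  refine le_of_le_of_eq (lintegral_mono fun v => pi_ball_inter_volume_le hh X v)
    (lintegral_indicator_const ?_ _)
  exact (measurable_const.prodMk measurable_id) (measurableSet_diam (m := m) (k := k) h)

/-- The moment bound averaged over a window of rows. -/
lemma moment_le {m : ℕ} (ν : Measure (Vec d)) [IsFiniteMeasure ν] (k : ℕ) {I : ℝ≥0∞}
    (hI : I ≠ ⊤)
    (hb : ∀ j ≤ k, ∀ v : Fin j → Vec d, ∫⁻ s, (ENNReal.ofReal (gap v s))⁻¹ ^ m ∂ν ≤ I)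
    {h : ℝ} (hh : 0 < h) :
    ∫⁻ X, ∫⁻ y, boxDens ν h X y ^ (k + 1) ∂(volume : Measure (Fin m → ℝ)) ∂rowsLaw d m ≤
      ν Set.univ * I ^ k := by
  set C := ENNReal.ofReal (2 * h) with hC
  have hC0 : C ^ m ≠ 0 := pow_ne_zero _ (by simp [hC, hh])
  have hCt : C ^ m ≠ ⊤ := ENNReal.pow_ne_top ENNReal.ofReal_ne_top
  have hct : (C ^ m)⁻¹ ^ (k + 1) * C ^ m ≠ ⊤ :=
    ENNReal.mul_ne_top (ENNReal.pow_ne_top (ENNReal.inv_ne_top.2 hC0)) hCt
  set νk := Measure.pi fun _ : Fin (k + 1) => ν with hνk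
  have hanti : ∀ v : Fin (k + 1) → Vec d,
      rowsLaw d m {X | ∀ j, ∀ i, |⟪X j, v i⟫ - ⟪X j, v 0⟫| ≤ 2 * h} ≤
        (C ^ k) ^ m * invGaps k v ^ m := by
    intro v
    rw [show {X : Fin m → Vec d | ∀ j, ∀ i, |⟪X j, v i⟫ - ⟪X j, v 0⟫| ≤ 2 * h} =
      Set.univ.pi fun _ : Fin m => {x | ∀ i, |⟪x, v i⟫ - ⟪x, v 0⟫| ≤ 2 * h} by ext X; simp,
      rowsLaw, Measure.pi_pi, Finset.prod_const, Finset.card_univ, Fintype.card_fin, ← mul_pow]
    exact pow_le_pow_left₀ zero_le (anticoncentration k v hh) m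
  have hsw : ∫⁻ X, νk {w | ∀ j, ∀ i, |⟪X j, w i⟫ - ⟪X j, w 0⟫| ≤ 2 * h} ∂rowsLaw d m =
      ∫⁻ v, rowsLaw d m {X | ∀ j, ∀ i, |⟪X j, v i⟫ - ⟪X j, v 0⟫| ≤ 2 * h} ∂νk :=
    (Measure.prod_apply (measurableSet_diam (m := m) (k := k) h)).symm.trans
      (Measure.prod_apply_symm (measurableSet_diam (m := m) (k := k) h))
  calc _ ≤ ∫⁻ X, (C ^ m)⁻¹ ^ (k + 1) * C ^ m *
          νk {w | ∀ j, ∀ i, |⟪X j, w i⟫ - ⟪X j, w 0⟫| ≤ 2 * h} ∂rowsLaw d m :=
        lintegral_mono fun X => moment_le_diam ν k hh X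
    _ = (C ^ m)⁻¹ ^ (k + 1) * C ^ m *
          ∫⁻ X, νk {w | ∀ j, ∀ i, |⟪X j, w i⟫ - ⟪X j, w 0⟫| ≤ 2 * h} ∂rowsLaw d m :=
        lintegral_const_mul' _ _ hct
    _ ≤ (C ^ m)⁻¹ ^ (k + 1) * C ^ m * ∫⁻ v, (C ^ k) ^ m * invGaps k v ^ m ∂νk := by
        rw [hsw]; exact mul_le_mul_right (lintegral_mono hanti) _
    _ ≤ (C ^ m)⁻¹ ^ (k + 1) * C ^ m * ((C ^ k) ^ m * (ν Set.univ * I ^ k)) := by
        rw [lintegral_const_mul' _ _ (ENNReal.pow_ne_top (ENNReal.pow_ne_top
          ENNReal.ofReal_ne_top))]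
        exact mul_le_mul_right (mul_le_mul_right (lintegral_invGaps_le ν m hI k hb) _) _
    _ = ν Set.univ * I ^ k := by
        have h1 : ((C ^ m)⁻¹) ^ (k + 1) * (C ^ m * (C ^ k) ^ m) = 1 := by
          rw [← pow_mul, mul_comm k m, pow_mul, ← pow_succ', ← mul_pow,
            ENNReal.inv_mul_cancel hC0 hCt, one_pow]
        calc (C ^ m)⁻¹ ^ (k + 1) * C ^ m * ((C ^ k) ^ m * (ν Set.univ * I ^ k))
            = (C ^ m)⁻¹ ^ (k + 1) * (C ^ m * (C ^ k) ^ m) * (ν Set.univ * I ^ k) := by ring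
          _ = _ := by rw [h1, one_mul]

/-- The key estimate: for a finite measure `ν` whose inverse-gap integrals are at most `I`, the
probability that a window lands in `B` is controlled by the Lebesgue measure of the sections of
`B`. -/
lemma window_mass_le {m : ℕ} (ν : Measure (Vec d)) [IsFiniteMeasure ν] (k : ℕ) {I : ℝ≥0∞}
    (hI : I ≠ ⊤)
    (hb : ∀ j ≤ k, ∀ v : Fin j → Vec d, ∫⁻ s, (ENNReal.ofReal (gap v s))⁻¹ ^ m ∂ν ≤ I)
    {B : Set ((Fin m → Vec d) × (Fin m → ℝ))} (hB : MeasurableSet B) {l : ℝ≥0∞} (hl0 : l ≠ 0)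
    (hlt : l ≠ ⊤) :
    ∫⁻ s, rowsLaw d m {X | (X, lab X s) ∈ B} ∂ν ≤
      l * ∫⁻ X, volume (Prod.mk X ⁻¹' B) ∂rowsLaw d m + (l ^ k)⁻¹ * (ν Set.univ * I ^ k) := by
  set h : ℕ → ℝ := fun n => 1 / ((n : ℝ) + 1) with hh
  have hpos : ∀ n, 0 < h n := fun n => by positivity
  have htend : Tendsto h atTop (𝓝 0) := tendsto_one_div_add_atTop_nhds_zero_nat
  set Q : ℕ → (Fin m → Vec d) → ℝ≥0∞ :=
    fun n X => ∫⁻ y, (l ^ k)⁻¹ * boxDens ν (h n) X y ^ (k + 1) with hQ
  have hQm : ∀ n, Measurable (Q n) := fun n =>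
    (((measurable_boxDens ν (h n)).pow_const _).const_mul _).lintegral_prod_right'
  have hpt : ∀ X, ν {s | (X, lab X s) ∈ B} ≤
      l * volume (Prod.mk X ⁻¹' B) + liminf (fun n => Q n X) atTop := by
    intro X
    by_cases hfin : volume (Prod.mk X ⁻¹' B) = ⊤
    · simp [hfin, hl0]
    refine ENNReal.le_of_forall_pos_le_add fun ε hε _ => ?_
    have hε' : (0 : ℝ≥0∞) < l⁻¹ * ε :=
      ENNReal.mul_pos (ENNReal.inv_ne_zero.2 hlt) (by simpa using hε.ne')
    obtain ⟨O, hBO, hO, hOv⟩ := Set.exists_isOpen_lt_add _ hfin hε'.ne'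
    have h1 : ν {s | (X, lab X s) ∈ B} ≤ ν (lab X ⁻¹' O) := measure_mono fun s hs => hBO hs
    have h3 : ∀ n, ∫⁻ y in O, boxDens ν (h n) X y ≤ l * volume O + Q n X := by
      intro n
      calc ∫⁻ y in O, boxDens ν (h n) X y
          ≤ ∫⁻ y in O, l + (l ^ k)⁻¹ * boxDens ν (h n) X y ^ (k + 1) :=
            lintegral_mono fun y => le_add_pow_div hl0 hlt k _
        _ = l * volume O + ∫⁻ y in O, (l ^ k)⁻¹ * boxDens ν (h n) X y ^ (k + 1) := by
            rw [lintegral_add_left measurable_const, setLIntegral_const]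
        _ ≤ _ := by gcongr; exact setLIntegral_le_lintegral O _
    calc ν {s | (X, lab X s) ∈ B} ≤ liminf (fun n => ∫⁻ y in O, boxDens ν (h n) X y) atTop :=
          h1.trans (open_mass_le_liminf ν X hO hpos htend)
      _ ≤ liminf (fun n => l * volume O + Q n X) atTop :=
          liminf_le_liminf (Eventually.of_forall h3)
      _ = l * volume O + liminf (fun n => Q n X) atTop :=
          liminf_const_add atTop _ _ (by isBoundedDefault) (by isBoundedDefault)
      _ ≤ l * (volume (Prod.mk X ⁻¹' B) + l⁻¹ * ε) + liminf (fun n => Q n X) atTop := by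
          gcongr
      _ = _ := by
          rw [mul_add, ← mul_assoc l, ENNReal.mul_inv_cancel hl0 hlt, one_mul, add_right_comm]
  have hswap : ∫⁻ s, rowsLaw d m {X | (X, lab X s) ∈ B} ∂ν =
      ∫⁻ X, ν {s | (X, lab X s) ∈ B} ∂rowsLaw d m := by
    have hm : MeasurableSet {p : (Fin m → Vec d) × Vec d | (p.1, lab p.1 p.2) ∈ B} :=
      (measurable_fst.prodMk measurable_lab) hB
    exact (Measure.prod_apply_symm hm).symm.trans (Measure.prod_apply hm)
  have hlk : (l ^ k)⁻¹ ≠ ⊤ := ENNReal.inv_ne_top.2 (pow_ne_zero _ hl0)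
  have hbound : ∀ n, ∫⁻ X, Q n X ∂rowsLaw d m ≤ (l ^ k)⁻¹ * (ν Set.univ * I ^ k) := by
    intro n
    simp only [hQ]
    simp_rw [lintegral_const_mul' _ _ hlk]
    exact mul_le_mul_right (moment_le ν k hI hb (hpos n)) _
  rw [hswap]
  refine (lintegral_mono hpt).trans ?_
  rw [lintegral_add_left ((measurable_measure_prodMk_left hB).const_mul l),
    lintegral_const_mul' _ _ hlt]
  gcongr
  exact (lintegral_liminf_le hQm).trans (liminf_le_of_frequently_le'
    (Frequently.of_forall hbound))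

end Vale.Agent.P309
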