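import Vale.Agent.P309.Gauss

/-!
# The uniform law on the sphere gives little mass to small balls
-/

namespace Vale.Agent.P309

open MeasureTheory ProbabilityTheory
open scoped RealInnerProductSpace ENNReal

lemma lintegral_pi_prod {α : Type*} [MeasurableSpace α] (μ : Measure α) [SigmaFinite μ] :
    ∀ (n : ℕ) (f : Fin n → α → ℝ≥0∞), (∀ i, Measurable (f i)) →
      ∫⁻ x, ∏ i, f i (x i) ∂(Measure.pi fun _ : Fin n => μ) = ∏ i, ∫⁻ a, f i a ∂μ
  | 0, f, _ => by simp
  | n + 1, f, hf => by
    have e := (measurePreserving_piFinSuccAbove (fun _ : Fin (n + 1) => μ) 0).symm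
    have hm : Measurable fun x : Fin (n + 1) → α => ∏ i, f i (x i) :=
      Finset.measurable_prod _ fun i _ => (hf i).comp (measurable_pi_apply i)
    rw [← e.lintegral_comp hm]
    simp only [Fin.prod_univ_succ, MeasurableEquiv.piFinSuccAbove_symm_apply, Fin.insertNthEquiv,
      Equiv.coe_fn_mk, Fin.insertNth_zero', Fin.cons_zero, Fin.cons_succ]
    have hm' : Measurable fun x : Fin n → α => ∏ i : Fin n, f i.succ (x i) :=
      Finset.measurable_prod _ fun i _ => (hf i.succ).comp (measurable_pi_apply i)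
    rw [lintegral_prod_mul (f := f 0) (g := fun x : Fin n → α => ∏ i : Fin n, f i.succ (x i))
      (hf 0).aemeasurable hm'.aemeasurable]
    exact congrArg _ (lintegral_pi_prod μ n _ fun i => hf i.succ)

variable {d : ℕ}

lemma measurable_normalize : Measurable fun g : Vec d => ‖g‖⁻¹ • g := by fun_prop

instance sphereLaw_prob : IsProbabilityMeasure (sphereLaw d) :=
  Measure.isProbabilityMeasure_map measurable_normalize.aemeasurable

lemma sphereLaw_compl_closedBall : sphereLaw d (Metric.closedBall 0 1)ᶜ = 0 := by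
  rw [sphereLaw, Measure.map_apply measurable_normalize
    Metric.isClosed_closedBall.measurableSet.compl]
  convert measure_empty (μ := stdGaussian (Vec d))
  ext g
  simp only [Set.mem_preimage, Set.mem_compl_iff, Metric.mem_closedBall, dist_zero_right,
    Set.mem_empty_iff_false, iff_false, not_not, norm_smul, norm_inv, norm_norm]
  by_cases h : ‖g‖ = 0
  · simp [h]
  · rw [inv_mul_cancel₀ h]

lemma sphereLaw_norm_ne (n : ℕ) : ∀ᵐ s ∂sphereLaw (n + 1), ‖s‖ = 1 := by
  refine (ae_map_iff measurable_normalize.aemeasurable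
    (measurableSet_eq_fun measurable_norm measurable_const)).2 ?_
  have h0 : stdGaussian (Vec (n + 1)) {0} = 0 := by
    set q : Vec (n + 1) := EuclideanSpace.single 0 1 with hq'
    have hq : ‖q‖ = 1 := by simp [hq']
    haveI : NullSingletonClass (gaussianReal 0 1) := nullSingletonClass_gaussianReal one_ne_zero
    refine measure_mono_null (fun x hx => ?_)
      (show stdGaussian (Vec (n + 1)) ((fun x => ⟪x, q⟫) ⁻¹' {0}) = 0 by
        rw [← Measure.map_apply (by fun_prop) (measurableSet_singleton _), map_inner_unit q hq]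
        exact measure_singleton 0)
    simp [Set.mem_singleton_iff.1 hx]
  filter_upwards [compl_mem_ae_iff.2 h0] with g hg
  exact norm_smul_inv_norm (by simpa using hg)

lemma sphereLaw_closedBall_le (n : ℕ) (z : Vec (n + 1)) {r : ℝ} (hr : 0 < r) :
    sphereLaw (n + 1) (Metric.closedBall z r) ≤ ENNReal.ofReal (2 ^ (n + 1) * r ^ n) := by
  rcases le_or_gt (1 / 2 : ℝ) r with hr2 | hr2
  · refine prob_le_one.trans ?_
    rw [← ENNReal.ofReal_one]
    refine ENNReal.ofReal_le_ofReal ?_
    calc (1 : ℝ) ≤ 2 * (2 * r) ^ n := by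
          have : (1 : ℝ) ≤ (2 * r) ^ n := one_le_pow₀ (by linarith)
          linarith
      _ = _ := by rw [mul_pow, pow_succ]; ring
  obtain ⟨q, hq, a, hza⟩ : ∃ q : Vec (n + 1), ‖q‖ = 1 ∧ ∃ a : ℝ, z = a • q := by
    by_cases hz : z = 0
    · exact ⟨EuclideanSpace.single 0 1, by simp, 0, by simp [hz]⟩
    · exact ⟨‖z‖⁻¹ • z, norm_smul_inv_norm hz, ‖z‖, by
        rw [smul_inv_smul₀ (norm_ne_zero_iff.2 hz)]⟩
  obtain ⟨b, hb⟩ := Orthonormal.exists_orthonormalBasis_extension_of_card_eq
    (𝕜 := ℝ) (E := Vec (n + 1)) (ι := Fin (n + 1)) (by simp)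
    (v := fun _ => q) (s := {0}) (by
      refine ⟨fun i => hq, fun i j hij => absurd (Subsingleton.elim i j) hij⟩)
  have hb0 : b 0 = q := hb 0 rfl
  set t : ℝ := 1 / (8 * r ^ 2) with ht
  have ht0 : 0 < t := by positivity
  set f : Fin (n + 1) → ℝ → ℝ≥0∞ := Fin.cons (fun z => ENNReal.ofReal (Real.exp (1 / 4 * z ^ 2)))
    (fun _ z => ENNReal.ofReal (Real.exp (-t * z ^ 2))) with hf
  have hfm : ∀ i, Measurable (f i) := by
    intro i
    refine Fin.cases ?_ (fun j => ?_) i
    · simp only [hf, Fin.cons_zero]; fun_prop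
    · simp only [hf, Fin.cons_succ]; fun_prop
  set Φ : (Fin (n + 1) → ℝ) → Vec (n + 1) := fun x => ∑ i, x i • b i with hΦ
  have hΦm : Measurable Φ := by rw [hΦ]; fun_prop
  have hmeas : MeasurableSet ((fun g : Vec (n + 1) => ‖g‖⁻¹ • g) ⁻¹' Metric.closedBall z r) :=
    measurable_normalize Metric.isClosed_closedBall.measurableSet
  rw [sphereLaw, Measure.map_apply measurable_normalize Metric.isClosed_closedBall.measurableSet,
    stdGaussian_eq_map_pi_orthonormalBasis b, Measure.map_apply hΦm hmeas]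
  have hkey : ∀ x ∈ Φ ⁻¹' ((fun g : Vec (n + 1) => ‖g‖⁻¹ • g) ⁻¹' Metric.closedBall z r),
      (1 : ℝ≥0∞) ≤ ∏ i, f i (x i) := by
    intro x hx
    simp only [Set.mem_preimage, Metric.mem_closedBall, dist_eq_norm] at hx
    set g := Φ x with hg
    have hn : ‖g‖ ^ 2 = ∑ i, x i ^ 2 := by
      rw [← real_inner_self_eq_norm_sq, hg, hΦ, b.orthonormal.inner_sum]
      simp [pow_two]
    have h0 : ⟪g, q⟫ = x 0 := by
      rw [hg, hΦ, ← hb0]
      simpa using b.orthonormal.inner_left_fintype x 0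
    have hdist : ‖g - (‖g‖ * a) • q‖ ≤ r * ‖g‖ := by
      rcases eq_or_ne g 0 with hg0 | hg0
      · simp [hg0]
      · have heq : g - (‖g‖ * a) • q = ‖g‖ • (‖g‖⁻¹ • g - z) := by
          rw [smul_sub, smul_inv_smul₀ (norm_ne_zero_iff.2 hg0), hza, smul_smul]
        rw [heq, norm_smul, norm_norm, mul_comm r]
        exact mul_le_mul_of_nonneg_left hx (norm_nonneg _)
    have hsq : ‖g - (‖g‖ * a) • q‖ ^ 2 = ‖g‖ ^ 2 - 2 * (‖g‖ * a) * x 0 + (‖g‖ * a) ^ 2 := by
      rw [norm_sub_sq_real, norm_smul, mul_pow, hq, real_inner_smul_right, h0, Real.norm_eq_abs,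
        sq_abs]
      ring
    have hle := pow_le_pow_left₀ (norm_nonneg _) hdist 2
    rw [mul_pow, hsq] at hle
    have hrest : ∑ i : Fin n, x i.succ ^ 2 ≤ r ^ 2 * ‖g‖ ^ 2 := by
      have h1 := hn
      rw [Fin.sum_univ_succ] at h1
      nlinarith [sq_nonneg (‖g‖ * a - x 0)]
    have hgle : ‖g‖ ^ 2 ≤ 2 * x 0 ^ 2 := by
      have h1 := hn
      rw [Fin.sum_univ_succ] at h1
      nlinarith [show r ^ 2 ≤ 1 / 4 by nlinarith, sq_nonneg ‖g‖]
    have hexp : 0 ≤ 1 / 4 * x 0 ^ 2 + ∑ i : Fin n, -t * x i.succ ^ 2 := by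
      rw [← Finset.mul_sum, neg_mul]
      have h2 : t * ∑ i : Fin n, x i.succ ^ 2 ≤ t * (r ^ 2 * (2 * x 0 ^ 2)) := by
        refine mul_le_mul_of_nonneg_left (hrest.trans ?_) ht0.le
        gcongr
      have h3 : t * (r ^ 2 * (2 * x 0 ^ 2)) = 1 / 4 * x 0 ^ 2 := by
        rw [ht]; field_simp; ring
      linarith
    rw [Fin.prod_univ_succ, hf]
    simp only [Fin.cons_zero, Fin.cons_succ]
    rw [← ENNReal.ofReal_prod_of_nonneg (fun i _ => (Real.exp_pos _).le), ← Real.exp_sum,
      ← ENNReal.ofReal_mul (Real.exp_pos _).le, ← Real.exp_add, ← ENNReal.ofReal_one]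
    exact ENNReal.ofReal_le_ofReal (Real.one_le_exp hexp)
  calc (Measure.pi fun _ => gaussianReal 0 1)
        (Φ ⁻¹' ((fun g : Vec (n + 1) => ‖g‖⁻¹ • g) ⁻¹' Metric.closedBall z r))
      ≤ ∫⁻ x, ∏ i, f i (x i) ∂(Measure.pi fun _ => gaussianReal 0 1) := by
        rw [← lintegral_indicator_one (hΦm hmeas)]
        refine lintegral_mono fun x => ?_
        by_cases hx : x ∈ Φ ⁻¹' ((fun g : Vec (n + 1) => ‖g‖⁻¹ • g) ⁻¹' Metric.closedBall z r)
        · rw [Set.indicator_of_mem hx]; exact hkey x hx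
        · rw [Set.indicator_of_notMem hx]; exact zero_le
    _ = ∏ i, ∫⁻ a, f i a ∂gaussianReal 0 1 := lintegral_pi_prod _ _ f hfm
    _ ≤ ENNReal.ofReal (2 ^ (n + 1) * r ^ n) := by
        rw [Fin.prod_univ_succ]
        simp only [hf, Fin.cons_zero, Fin.cons_succ]
        rw [gauss_exp_sq (by norm_num), gauss_exp_sq (by linarith), Finset.prod_const,
          Finset.card_univ, Fintype.card_fin, ← ENNReal.ofReal_pow (by positivity),
          ← ENNReal.ofReal_mul (by positivity)]
        refine ENNReal.ofReal_le_ofReal ?_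
        have h2 : (√(1 - 2 * -t))⁻¹ ≤ 2 * r := by
          rw [inv_le_comm₀ (Real.sqrt_pos.2 (by linarith)) (by positivity),
            Real.le_sqrt (by positivity) (by linarith)]
          rw [ht]
          field_simp
          nlinarith
        calc (√(1 - 2 * (1 / 4 : ℝ)))⁻¹ * (√(1 - 2 * -t))⁻¹ ^ n
            ≤ 2 * (2 * r) ^ n := by
              gcongr
              linarith [sqrt_half_factor]
          _ = _ := by rw [mul_pow, pow_succ]; ring

end Vale.Agent.P309

namespace Vale.Agent.P309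

open MeasureTheory ProbabilityTheory

/-- `sphereLaw` is invariant under every linear isometry. -/
lemma sphereLaw_map_isometry {d : ℕ} (f : Vec d ≃ₗᵢ[ℝ] Vec d) :
    (sphereLaw d).map f = sphereLaw d := by
  conv_rhs => rw [sphereLaw, ← stdGaussian_map f]
  rw [sphereLaw, Measure.map_map f.continuous.measurable measurable_normalize,
    Measure.map_map measurable_normalize f.continuous.measurable]
  congr 1
  funext g
  simp

end Vale.Agent.P309
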