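import Vale.Agent.P309.Pieces

/-!
# One window of rows read from a spread piece
-/

namespace Vale.Agent.P309

open MeasureTheory ProbabilityTheory
open scoped RealInnerProductSpace ENNReal

variable {d : ℕ}

/-- The probability over a window of rows that the window map `W` gives `w'`, given the signal. -/
noncomputable def hit {m : ℕ} {S : Type*} (W : (Fin m → Vec d) × (Fin m → ℝ) → S) (w' : S)
    (s : Vec d) : ℝ≥0∞ :=
  rowsLaw d m {X | W (X, lab X s) = w'}

lemma measurable_hit {m : ℕ} {S : Type*} [MeasurableSpace S] [MeasurableSingletonClass S]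
    {W : (Fin m → Vec d) × (Fin m → ℝ) → S} (hW : Measurable W) (w' : S) :
    Measurable (hit W w') :=
  measurable_measure_prodMk_right ((hW.comp (measurable_fst.prodMk measurable_lab))
    (measurableSet_singleton w'))

lemma sum_measure_fiber {α S : Type*} [MeasurableSpace α] [Fintype S] [MeasurableSpace S]
    [MeasurableSingletonClass S] (μ : Measure α) {V : α → S} (hV : Measurable V)
    (A : Set α) : ∑ w : S, μ (V ⁻¹' {w} ∩ A) = μ A := by
  have h := sum_measure_preimage_singleton (μ := μ.restrict A) (f := V) Finset.univ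
    fun w _ => hV (measurableSet_singleton w)
  simpa [Measure.restrict_apply (hV (measurableSet_singleton _))] using h

lemma outside_le {m : ℕ} {v : Vec d} {r : ℝ} (hr : 0 < r) (hv : ‖v‖ ≤ r) :
    rowsLaw d m {X | 4 * (m : ℝ) * r ^ 2 < ∑ i, ⟪X i, v⟫ ^ 2} ≤ (2 / 3) ^ m := by
  set f : Fin m → Vec d → ℝ≥0∞ :=
    fun _ x => ENNReal.ofReal (Real.exp (⟪x, v⟫ ^ 2 / (4 * r ^ 2))) with hf
  have hfm : ∀ i, Measurable (f i) := fun i => by simp only [hf]; fun_prop
  have hc : ENNReal.ofReal (Real.exp (-1)) * ENNReal.ofReal (3 / 2) ≤ 2 / 3 := by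
    rw [← ENNReal.ofReal_mul (Real.exp_pos _).le, show (2 / 3 : ℝ≥0∞) = ENNReal.ofReal (2 / 3) by
      rw [ENNReal.ofReal_div_of_pos (by norm_num)]; simp]
    refine ENNReal.ofReal_le_ofReal ?_
    have h := Real.exp_one_gt_d9
    have h2 : Real.exp (-1) * Real.exp 1 = 1 := by rw [← Real.exp_add]; simp
    nlinarith [Real.exp_pos (-1)]
  calc rowsLaw d m {X | 4 * (m : ℝ) * r ^ 2 < ∑ i, ⟪X i, v⟫ ^ 2}
      ≤ ∫⁻ X, ENNReal.ofReal (Real.exp (-1)) ^ m * ∏ i, f i (X i) ∂rowsLaw d m := by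
        rw [← lintegral_indicator_one (measurableSet_lt measurable_const (by fun_prop))]
        refine lintegral_mono fun X => ?_
        by_cases hX : X ∈ {X : Fin m → Vec d | 4 * (m : ℝ) * r ^ 2 < ∑ i, ⟪X i, v⟫ ^ 2}
        · rw [Set.indicator_of_mem hX, Pi.one_apply, hf,
            ← ENNReal.ofReal_prod_of_nonneg fun i _ => (Real.exp_pos _).le, ← Real.exp_sum,
            ← ENNReal.ofReal_pow (Real.exp_pos _).le, ← ENNReal.ofReal_mul (by positivity),
            ← ENNReal.ofReal_one, ← Real.exp_nat_mul, ← Real.exp_add]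
          refine ENNReal.ofReal_le_ofReal (Real.one_le_exp ?_)
          rw [← Finset.sum_div]
          have h1 : (m : ℝ) ≤ (∑ i, ⟪X i, v⟫ ^ 2) / (4 * r ^ 2) := by
            rw [le_div_iff₀ (by positivity)]
            calc (m : ℝ) * (4 * r ^ 2) = 4 * m * r ^ 2 := by ring
              _ ≤ _ := (Set.mem_ofPred_eq ▸ hX).le
          linarith
        · rw [Set.indicator_of_notMem hX]; exact zero_le
    _ = ENNReal.ofReal (Real.exp (-1)) ^ m * ∏ i, ∫⁻ x, f i x ∂stdGaussian (Vec d) := by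
        rw [lintegral_const_mul' _ _ (ENNReal.pow_ne_top ENNReal.ofReal_ne_top), rowsLaw,
          lintegral_pi_prod _ m f hfm]
    _ ≤ ENNReal.ofReal (Real.exp (-1)) ^ m * ENNReal.ofReal (3 / 2) ^ m := by
        refine mul_le_mul_right ?_ _
        refine le_of_le_of_eq (Finset.prod_le_prod' fun i _ => gauss_exp_inner hr hv) ?_
        simp
    _ ≤ _ := by rw [← mul_pow]; exact pow_le_pow_left₀ zero_le hc m

lemma volume_sqBall_le {m : ℕ} (c : Fin m → ℝ) {r : ℝ} (hr : 0 < r) :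
    volume {y : Fin m → ℝ | ∑ i, (y i - c i) ^ 2 ≤ 4 * m * r ^ 2} ≤
      ENNReal.ofReal (16 * r) ^ m := by
  set f : Fin m → ℝ → ℝ≥0∞ :=
    fun i y => ENNReal.ofReal (Real.exp (-(1 / (8 * r ^ 2)) * (y - c i) ^ 2)) with hf
  have hfm : ∀ i, Measurable (f i) := fun i => by simp only [hf]; fun_prop
  have hb : (0 : ℝ) < 1 / (8 * r ^ 2) := by positivity
  have hone : ∀ i, ∫⁻ y, f i y ≤ ENNReal.ofReal (6 * r) := by
    intro i
    have hint : Integrable fun y : ℝ => Real.exp (-(1 / (8 * r ^ 2)) * (y - c i) ^ 2) :=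
      (integrable_exp_neg_mul_sq hb).comp_sub_right (c i)
    simp only [hf]
    rw [← ofReal_integral_eq_lintegral_ofReal hint
      (Filter.Eventually.of_forall fun y => (Real.exp_pos _).le),
      integral_sub_right_eq_self (fun y : ℝ => Real.exp (-(1 / (8 * r ^ 2)) * y ^ 2)) (c i),
      integral_gaussian]
    refine ENNReal.ofReal_le_ofReal ?_
    rw [Real.sqrt_le_left (by positivity)]
    have := Real.pi_lt_four
    field_simp
    nlinarith
  calc volume {y : Fin m → ℝ | ∑ i, (y i - c i) ^ 2 ≤ 4 * m * r ^ 2}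
      ≤ ∫⁻ y : Fin m → ℝ, ENNReal.ofReal (Real.exp (1 / 2)) ^ m * ∏ i, f i (y i) := by
        rw [← lintegral_indicator_one (measurableSet_le (by fun_prop) measurable_const)]
        refine lintegral_mono fun y => ?_
        by_cases hy : y ∈ {y : Fin m → ℝ | ∑ i, (y i - c i) ^ 2 ≤ 4 * m * r ^ 2}
        · rw [Set.indicator_of_mem hy, Pi.one_apply, hf,
            ← ENNReal.ofReal_prod_of_nonneg fun i _ => (Real.exp_pos _).le, ← Real.exp_sum,
            ← ENNReal.ofReal_pow (Real.exp_pos _).le, ← ENNReal.ofReal_mul (by positivity),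
            ← ENNReal.ofReal_one, ← Real.exp_nat_mul, ← Real.exp_add]
          refine ENNReal.ofReal_le_ofReal (Real.one_le_exp ?_)
          rw [← Finset.mul_sum]
          have h1 : 1 / (8 * r ^ 2) * ∑ i, (y i - c i) ^ 2 ≤
              1 / (8 * r ^ 2) * (4 * m * r ^ 2) := mul_le_mul_of_nonneg_left hy hb.le
          have h2 : 1 / (8 * r ^ 2) * (4 * m * r ^ 2) = (m : ℝ) * (1 / 2) := by
            field_simp; ring
          linarith
        · rw [Set.indicator_of_notMem hy]; exact zero_le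
    _ = ENNReal.ofReal (Real.exp (1 / 2)) ^ m * ∏ i, ∫⁻ y : ℝ, f i y := by
        rw [lintegral_const_mul' _ _ (ENNReal.pow_ne_top ENNReal.ofReal_ne_top), volume_pi,
          lintegral_pi_prod _ m f hfm]
    _ ≤ ENNReal.ofReal (Real.exp (1 / 2)) ^ m * ENNReal.ofReal (6 * r) ^ m := by
        refine mul_le_mul_right (le_of_le_of_eq (Finset.prod_le_prod' fun i _ => hone i) ?_) _
        simp
    _ ≤ _ := by
        rw [← mul_pow, ← ENNReal.ofReal_mul (Real.exp_pos _).le]
        refine pow_le_pow_left₀ zero_le (ENNReal.ofReal_le_ofReal ?_) m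
        have h1 := Real.exp_one_lt_d9
        have h2 : Real.exp (1 / 2) * Real.exp (1 / 2) = Real.exp 1 := by
          rw [← Real.exp_add]; norm_num
        have h3 : Real.exp (1 / 2) ≤ 2 := by nlinarith [Real.exp_pos (1 / 2 : ℝ)]
        nlinarith

/-- Outside small exceptional sets, one window multiplies the likelihood of any signal by at most
`2^(30 m)`. -/
lemma window_split {m : ℕ} (hm : 1 ≤ m) {S : Type*} [Fintype S] [MeasurableSpace S]
    [MeasurableSingletonClass S] {W : (Fin m → Vec d) × (Fin m → ℝ) → S} (hW : Measurable W)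
    (hcard : (Fintype.card S : ℝ≥0∞) ≤ 2 ^ (10 * m * m))
    (ν : Measure (Vec d)) [IsFiniteMeasure ν] {z : Vec d} {h : ℕ}
    (hν : IsSpread (12 * m) ν z h) :
    ∃ U : S → Set (Vec d), (∀ w, MeasurableSet (U w)) ∧
      ∑ w, ∫⁻ s in U w, hit W w s ∂ν ≤
        ν Set.univ * ((2 ^ (8 * m))⁻¹ + (2 ^ (30 * m))⁻¹ + (2 / 3) ^ m) ∧
      ∀ w s, s ∉ U w → hit W w s * ν Set.univ ≤ 2 ^ (30 * m) * ∫⁻ x, hit W w x ∂ν := by
  set p := ν Set.univ with hp
  by_cases hp0 : p = 0
  · refine ⟨fun _ => ∅, fun _ => MeasurableSet.empty, by simp, fun w s _ => ?_⟩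
    rw [hp0]; simp
  have hpt : p ≠ ⊤ := measure_ne_top _ _
  set P : S → ℝ≥0∞ := fun w => ∫⁻ x, hit W w x ∂ν with hP
  have hPt : ∀ w, P w ≠ ⊤ := fun w =>
    ne_top_of_le_ne_top hpt ((lintegral_mono fun x => prob_le_one).trans (by simp [hp]))
  set U : S → Set (Vec d) := fun w => {s | 2 ^ (30 * m) * P w < hit W w s * p} with hU
  have hUm : ∀ w, MeasurableSet (U w) := fun w =>
    measurableSet_lt measurable_const ((measurable_hit hW w).mul_const p)
  refine ⟨U, hUm, ?_, fun w s hs => not_lt.1 hs⟩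
  have hUp : ∀ w, ν (U w) * 2 ^ (30 * m) ≤ p := by
    intro w
    by_cases hP0 : P w = 0
    · have hz : ν (U w) = 0 := by
        refine measure_mono_null (fun s hs => ?_)
          (ae_iff.1 ((lintegral_eq_zero_iff (measurable_hit hW w)).1 hP0))
        intro h0
        have hs' : 2 ^ (30 * m) * P w < hit W w s * p := hs
        rw [hP0, mul_zero, show hit W w s = 0 from h0, zero_mul] at hs'
        exact lt_irrefl _ hs'
      simp [hz]
    refine (ENNReal.mul_le_mul_iff_left hP0 (hPt w)).1 ?_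
    calc ν (U w) * 2 ^ (30 * m) * P w = ∫⁻ _ in U w, 2 ^ (30 * m) * P w ∂ν := by
          rw [setLIntegral_const]; ring
      _ ≤ ∫⁻ s in U w, hit W w s * p ∂ν :=
          setLIntegral_mono ((measurable_hit hW w).mul_const p) fun s hs => le_of_lt hs
      _ ≤ ∫⁻ s, hit W w s * p ∂ν := setLIntegral_le_lintegral _ _
      _ = p * P w := by rw [lintegral_mul_const' _ _ hpt, mul_comm, hP]
  set r : ℝ := (1 / 2 : ℝ) ^ h with hr
  have hr0 : 0 < r := by positivity
  set B : Set ((Fin m → Vec d) × (Fin m → ℝ)) :=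
    {q | ∑ i, (q.2 i - ⟪q.1 i, z⟫) ^ 2 ≤ 4 * m * r ^ 2} with hB
  have hBm : MeasurableSet B := measurableSet_le (by fun_prop) measurable_const
  set out : Vec d → Set (Fin m → Vec d) := fun s => {X | (X, lab X s) ∈ Bᶜ} with hout
  have hsplit : ∀ w s, hit W w s ≤ rowsLaw d m {X | (X, lab X s) ∈ W ⁻¹' {w} ∩ B} +
      rowsLaw d m ((fun X => W (X, lab X s)) ⁻¹' {w} ∩ out s) := by
    intro w s
    refine le_trans (measure_mono fun X hX => ?_) (measure_union_le _ _)
    by_cases hXB : (X, lab X s) ∈ B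
    · exact Or.inl ⟨hX, hXB⟩
    · exact Or.inr ⟨hX, hXB⟩
  have hm_in : ∀ w, Measurable fun s => rowsLaw d m {X | (X, lab X s) ∈ W ⁻¹' {w} ∩ B} :=
    fun w => measurable_measure_prodMk_right ((measurable_fst.prodMk measurable_lab)
      ((hW (measurableSet_singleton w)).inter hBm))
  have hm_out : ∀ w, Measurable fun s =>
      rowsLaw d m ((fun X => W (X, lab X s)) ⁻¹' {w} ∩ out s) :=
    fun w => measurable_measure_prodMk_right
      (((hW.comp (measurable_fst.prodMk measurable_lab)) (measurableSet_singleton w)).inter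
        ((measurable_fst.prodMk measurable_lab) hBm.compl))
  set l : ℝ≥0∞ := 2 ^ (m * h) * p * (2 ^ (12 * m))⁻¹ with hl
  have hl0 : l ≠ 0 := mul_ne_zero (mul_ne_zero (by simp) hp0)
    (ENNReal.inv_ne_zero.2 (ENNReal.pow_ne_top ENNReal.ofNat_ne_top))
  have hlt : l ≠ ⊤ := ENNReal.mul_ne_top (ENNReal.mul_ne_top
    (ENNReal.pow_ne_top ENNReal.ofNat_ne_top) hpt) (ENNReal.inv_ne_top.2 (by simp))
  set I : ℝ≥0∞ := 2 ^ (m * h) * p * (2 ^ (22 * m))⁻¹ with hI
  have hIt : I ≠ ⊤ := ENNReal.mul_ne_top (ENNReal.mul_ne_top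
    (ENNReal.pow_ne_top ENNReal.ofNat_ne_top) hpt) (ENNReal.inv_ne_top.2 (by simp))
  have hin : ∀ w, ∫⁻ s in U w, rowsLaw d m {X | (X, lab X s) ∈ W ⁻¹' {w} ∩ B} ∂ν ≤
      l * ∫⁻ X, volume (Prod.mk X ⁻¹' (W ⁻¹' {w} ∩ B)) ∂rowsLaw d m +
        p * ((2 ^ (30 * m))⁻¹ * (2 ^ (10 * m * m))⁻¹) := by
    intro w
    refine (window_mass_le (ν.restrict (U w)) m hIt
      (fun j hj v => lintegral_inv_gap_le hm ν hν (hUp w) hj v)
      ((hW (measurableSet_singleton w)).inter hBm) hl0 hlt).trans (add_le_add le_rfl ?_)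
    rw [Measure.restrict_apply_univ]
    have hlI : (l ^ m)⁻¹ * I ^ m = (2 ^ (10 * m * m))⁻¹ := by
      have h1 : I = l * (2 ^ (10 * m))⁻¹ := by
        rw [hI, hl, show 22 * m = 12 * m + 10 * m by ring, pow_add,
          ENNReal.mul_inv (Or.inl (by simp)) (Or.inl (ENNReal.pow_ne_top ENNReal.ofNat_ne_top))]
        ring
      rw [h1, mul_pow l, ← mul_assoc ((l ^ m)⁻¹), ENNReal.inv_mul_cancel (pow_ne_zero _ hl0)
        (ENNReal.pow_ne_top hlt), one_mul, ← ENNReal.inv_pow, ← pow_mul]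
    calc (l ^ m)⁻¹ * (ν (U w) * I ^ m) = ν (U w) * ((l ^ m)⁻¹ * I ^ m) := by ring
      _ ≤ (p * (2 ^ (30 * m))⁻¹) * (2 ^ (10 * m * m))⁻¹ := by
          rw [hlI]
          refine mul_le_mul_left ?_ _
          rw [← div_eq_mul_inv, ENNReal.le_div_iff_mul_le (Or.inl (by simp))
            (Or.inl (ENNReal.pow_ne_top ENNReal.ofNat_ne_top))]
          exact hUp w
      _ = _ := mul_assoc _ _ _
  have hvolsum : ∑ w, ∫⁻ X, volume (Prod.mk X ⁻¹' (W ⁻¹' {w} ∩ B)) ∂rowsLaw d m ≤
      2 ^ (4 * m) * (2 ^ (m * h))⁻¹ := by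
    rw [← lintegral_finsetSum _ fun w _ =>
      measurable_measure_prodMk_left ((hW (measurableSet_singleton w)).inter hBm)]
    refine (lintegral_mono (g := fun _ => 2 ^ (4 * m) * (2 ^ (m * h))⁻¹) fun X => ?_).trans
      (by simp)
    have h1 := sum_measure_fiber (volume : Measure (Fin m → ℝ))
      (hW.comp (measurable_const (a := X) |>.prodMk measurable_id)) (Prod.mk X ⁻¹' B)
    refine h1.le.trans ?_
    refine (volume_sqBall_le (fun i => ⟪X i, z⟫) hr0).trans (le_of_eq ?_)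
    rw [hr, ENNReal.ofReal_mul (by norm_num), mul_pow, two_inv_pow_eq, ← ENNReal.inv_pow,
      ← pow_mul, mul_comm h m, pow_mul _ 4 m]
    norm_num
  have houtsum : ∑ w, ∫⁻ s in U w, rowsLaw d m ((fun X => W (X, lab X s)) ⁻¹' {w} ∩ out s) ∂ν ≤
      p * (2 / 3) ^ m := by
    refine (Finset.sum_le_sum fun w _ => setLIntegral_le_lintegral (U w) _).trans ?_
    rw [← lintegral_finsetSum _ fun w _ => hm_out w]
    have hae : ∀ᵐ s ∂ν, s ∈ dball z h := ae_iff.2 hν.supp
    calc ∫⁻ s, ∑ w, rowsLaw d m ((fun X => W (X, lab X s)) ⁻¹' {w} ∩ out s) ∂ν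
        ≤ ∫⁻ _, (2 / 3 : ℝ≥0∞) ^ m ∂ν := by
          refine lintegral_mono_ae (hae.mono fun s hs => ?_)
          have h1 := sum_measure_fiber (rowsLaw d m)
            ((hW.comp (measurable_fst.prodMk measurable_lab)).comp
              (measurable_id.prodMk (measurable_const (a := s)))) (out s)
          refine h1.le.trans ?_
          refine le_trans (le_of_eq (congrArg _ ?_))
            (outside_le hr0 (v := s - z) (by simpa [dball, dist_eq_norm, hr] using hs))
          ext X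
          simp [hout, hB, lab, inner_sub_right]
      _ = p * (2 / 3) ^ m := by rw [lintegral_const, mul_comm]
  calc ∑ w, ∫⁻ s in U w, hit W w s ∂ν
      ≤ ∑ w, (∫⁻ s in U w, rowsLaw d m {X | (X, lab X s) ∈ W ⁻¹' {w} ∩ B} ∂ν +
          ∫⁻ s in U w, rowsLaw d m ((fun X => W (X, lab X s)) ⁻¹' {w} ∩ out s) ∂ν) := by
        refine Finset.sum_le_sum fun w _ => ?_
        rw [← lintegral_add_left (hm_in w)]
        exact lintegral_mono fun s => hsplit w s
    _ ≤ ∑ w, ((l * ∫⁻ X, volume (Prod.mk X ⁻¹' (W ⁻¹' {w} ∩ B)) ∂rowsLaw d m +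
          p * ((2 ^ (30 * m))⁻¹ * (2 ^ (10 * m * m))⁻¹)) +
          ∫⁻ s in U w, rowsLaw d m ((fun X => W (X, lab X s)) ⁻¹' {w} ∩ out s) ∂ν) :=
        Finset.sum_le_sum fun w _ => add_le_add (hin w) le_rfl
    _ ≤ l * (2 ^ (4 * m) * (2 ^ (m * h))⁻¹) +
          (Fintype.card S : ℝ≥0∞) * (p * ((2 ^ (30 * m))⁻¹ * (2 ^ (10 * m * m))⁻¹)) +
          p * (2 / 3) ^ m := by
        rw [Finset.sum_add_distrib, Finset.sum_add_distrib, ← Finset.mul_sum, Finset.sum_const,
          Finset.card_univ, nsmul_eq_mul]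
        gcongr
    _ ≤ p * (2 ^ (8 * m))⁻¹ + p * (2 ^ (30 * m))⁻¹ + p * (2 / 3) ^ m := by
        refine add_le_add (add_le_add (le_of_eq ?_) ?_) le_rfl
        · calc l * (2 ^ (4 * m) * (2 ^ (m * h))⁻¹)
              = p * 2 ^ (4 * m) * (2 ^ (12 * m))⁻¹ *
                  ((2 : ℝ≥0∞) ^ (m * h) * (2 ^ (m * h))⁻¹) := by rw [hl]; ring
            _ = _ := by
                rw [two_pow_inv_mul _ (by omega), show 12 * m - 4 * m = 8 * m by omega,
                  ENNReal.mul_inv_cancel (by simp) (ENNReal.pow_ne_top ENNReal.ofNat_ne_top),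
                  mul_one]
        · calc (Fintype.card S : ℝ≥0∞) * (p * ((2 ^ (30 * m))⁻¹ * (2 ^ (10 * m * m))⁻¹))
              ≤ 2 ^ (10 * m * m) * (p * ((2 ^ (30 * m))⁻¹ * (2 ^ (10 * m * m))⁻¹)) :=
                mul_le_mul_left hcard _
            _ = p * (2 ^ (30 * m))⁻¹ * ((2 : ℝ≥0∞) ^ (10 * m * m) * (2 ^ (10 * m * m))⁻¹) := by
                ring
            _ = _ := by
                rw [ENNReal.mul_inv_cancel (by simp) (ENNReal.pow_ne_top ENNReal.ofNat_ne_top),
                  mul_one]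
    _ = _ := by ring

end Vale.Agent.P309
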